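import Vale.Agent.P015.Uniform

/-!
# Walks on Gaussian primes are nowhere straight at large scales
-/

namespace Vale.Agent.P015

/-- **No straight corridors.** For all `D, W` there is `L` such that no finite walk on Gaussian
primes with steps at most `D` crosses lengthwise a rectangle of width `2W` and length `L`, whatever
its position and direction. -/
theorem no_corridor (D W : ℝ) (hD : 0 ≤ D) (hW : 0 ≤ W) : ∃ L : ℝ, 0 < L ∧
    ∀ a b c s₀ : ℝ, a ^ 2 + b ^ 2 = 1 → ∀ (m : ℕ) (z : ℕ → GaussianInt),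
      (∀ n ≤ m, Irreducible (z n)) →
      (∀ n < m, (((z (n + 1)).re : ℝ) - (z n).re) ^ 2 + (((z (n + 1)).im : ℝ) - (z n).im) ^ 2
        ≤ D ^ 2) →
      (∀ n ≤ m, |a * (z n).re + b * (z n).im - c| ≤ W) →
      -b * (z 0).re + a * (z 0).im ≤ s₀ →
      s₀ + L ≤ -b * (z m).re + a * (z m).im → False := by
  obtain ⟨R, hR⟩ := exists_nat_ge (2 * (W + 1 + 2 * D))
  obtain ⟨L₀, hL₀, hblocks⟩ := uniform_blocks R
  refine ⟨L₀ + 2, by linarith, ?_⟩
  intro a b c s₀ hab m z hprime hstep htube h0 hm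
  obtain ⟨X, Y, h1, h2, h3, h4⟩ := hblocks a b c (s₀ + 1) hab
  have ha1 : |a| ≤ 1 := by
    rw [abs_le]; constructor <;> nlinarith [sq_nonneg b]
  have hb1 : |b| ≤ 1 := by
    rw [abs_le]; constructor <;> nlinarith [sq_nonneg a]
  set s : ℕ → ℝ := fun n => -b * (z n).re + a * (z n).im with hs
  set Sc : ℝ := -b * X + a * Y with hSc
  have hstep' : ∀ n < m, |s (n + 1) - s n| ≤ 2 * D := by
    intro n hn
    have h5 := hstep n hn
    have hdx : |((z (n + 1)).re : ℝ) - (z n).re| ≤ D := by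
      apply abs_le_of_sq_le_sq _ hD
      nlinarith [sq_nonneg (((z (n + 1)).im : ℝ) - (z n).im)]
    have hdy : |((z (n + 1)).im : ℝ) - (z n).im| ≤ D := by
      apply abs_le_of_sq_le_sq _ hD
      nlinarith [sq_nonneg (((z (n + 1)).re : ℝ) - (z n).re)]
    have e : s (n + 1) - s n = -b * (((z (n + 1)).re : ℝ) - (z n).re)
        + a * (((z (n + 1)).im : ℝ) - (z n).im) := by
      simp only [hs]; ring
    rw [e]
    refine (abs_add_le _ _).trans ?_
    rw [abs_mul, abs_mul, abs_neg]
    have h6 := abs_nonneg (((z (n + 1)).re : ℝ) - (z n).re)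
    have h7 := abs_nonneg (((z (n + 1)).im : ℝ) - (z n).im)
    have h8 := abs_nonneg a
    have h9 := abs_nonneg b
    nlinarith
  -- the block forbids any walk vertex in its window
  have hforbid : ∀ n ≤ m, |s n - Sc| ≤ 2 * D → False := by
    intro n hn hclose
    have hQ : 0 < a ^ 2 + b ^ 2 := by linarith
    obtain ⟨h5, h6⟩ := in_box a b c 1 W (2 * D) (z n).re (z n).im X Y hQ h1 (htube n hn) hclose
    rw [hab, div_one] at h5 h6
    have hbig : (|a| + |b|) * (W + 1 + 2 * D) ≤ (R : ℝ) := by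
      refine le_trans ?_ hR
      have h7 : 0 ≤ W + 1 + 2 * D := by linarith
      nlinarith
    have h7 : |(z n).re - X| ≤ (R : ℤ) := by
      have : |(((z n).re - X : ℤ) : ℝ)| ≤ (R : ℝ) := h5.trans hbig
      exact_mod_cast this
    have h8 : |(z n).im - Y| ≤ (R : ℤ) := by
      have : |(((z n).im - Y : ℤ) : ℝ)| ≤ (R : ℝ) := h6.trans hbig
      exact_mod_cast this
    apply h4 _ _ h7 h8
    have e : (⟨X + ((z n).re - X), Y + ((z n).im - Y)⟩ : GaussianInt) = z n := by
      ext <;> simp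
    rw [e]
    exact hprime n hn
  have hbelow : ∀ n ≤ m, s n < Sc := by
    intro n
    induction n with
    | zero =>
      intro _
      have : s 0 ≤ s₀ := h0
      linarith
    | succ n ih =>
      intro hn
      have h5 := ih (by omega)
      have h6 : s n < Sc - 2 * D := by
        by_contra hc
        push Not at hc
        apply hforbid n (by omega)
        rw [abs_le]
        constructor <;> linarith
      have h7 := abs_le.1 (hstep' n (by omega))
      linarith [h7.2]
  have h5 := hbelow m le_rfl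
  have h6 : s₀ + (L₀ + 2) ≤ s m := hm
  linarith

/-- **Chord form.** For all `D, W` there is `L` such that every finite walk on Gaussian primes with
steps at most `D` whose endpoints are at distance at least `L` has a vertex at distance more than
`W` from the straight line through its endpoints. -/
theorem chord_theorem (D W : ℝ) (hD : 0 ≤ D) (hW : 0 ≤ W) : ∃ L : ℝ, 0 < L ∧
    ∀ (m : ℕ) (z : ℕ → GaussianInt),
      (∀ n ≤ m, Irreducible (z n)) →
      (∀ n < m, (((z (n + 1)).re : ℝ) - (z n).re) ^ 2 + (((z (n + 1)).im : ℝ) - (z n).im) ^ 2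
        ≤ D ^ 2) →
      L ^ 2 ≤ (((z m).re : ℝ) - (z 0).re) ^ 2 + (((z m).im : ℝ) - (z 0).im) ^ 2 →
      ∃ n ≤ m, W ^ 2 * ((((z m).re : ℝ) - (z 0).re) ^ 2 + (((z m).im : ℝ) - (z 0).im) ^ 2) <
        (((z n).re - (z 0).re) * (((z m).im : ℝ) - (z 0).im)
          - ((z n).im - (z 0).im) * (((z m).re : ℝ) - (z 0).re)) ^ 2 := by
  obtain ⟨L, hL, hcor⟩ := no_corridor D W hD hW
  refine ⟨L, hL, ?_⟩
  intro m z hprime hstep hlen
  by_contra hcon
  push Not at hcon
  set X : ℝ := ((z m).re : ℝ) - (z 0).re with hX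
  set Y : ℝ := ((z m).im : ℝ) - (z 0).im with hY
  set ρ : ℝ := Real.sqrt (X ^ 2 + Y ^ 2) with hρ
  have hρsq : ρ ^ 2 = X ^ 2 + Y ^ 2 := Real.sq_sqrt (by positivity)
  have hρL : L ≤ ρ := by
    apply Real.le_sqrt_of_sq_le hlen
  have hρpos : 0 < ρ := by linarith
  set a : ℝ := Y / ρ with ha
  set b : ℝ := -X / ρ with hb
  have hab : a ^ 2 + b ^ 2 = 1 := by
    rw [ha, hb]; field_simp; nlinarith
  refine hcor a b (a * (z 0).re + b * (z 0).im) (-b * (z 0).re + a * (z 0).im) hab m z hprime hstep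
    ?_ le_rfl ?_
  · intro n hn
    have h1 := hcon n hn
    have e : a * (z n).re + b * (z n).im - (a * (z 0).re + b * (z 0).im)
        = (((z n).re - (z 0).re) * Y - ((z n).im - (z 0).im) * X) / ρ := by
      rw [ha, hb]; field_simp; ring
    rw [e, abs_div, abs_of_pos hρpos, div_le_iff₀ hρpos]
    apply abs_le_of_sq_le_sq _ (by positivity)
    rw [mul_pow, hρsq]
    exact h1
  · have e : -b * (z m).re + a * (z m).im
        = (-b * (z 0).re + a * (z 0).im) + ρ := by
      have h1 : -b * X + a * Y = ρ := by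
        rw [ha, hb]; field_simp; nlinarith
      have h2 : ((z m).re : ℝ) = (z 0).re + X := by rw [hX]; ring
      have h3 : ((z m).im : ℝ) = (z 0).im + Y := by rw [hY]; ring
      rw [h2, h3]
      linear_combination h1
    rw [e]
    linarith

/-- **Uniform strip theorem.** For all `D, W` there is `L` such that, for every real line, a finite
walk on Gaussian primes with steps at most `D` all of whose vertices lie within `W` of the line has
its endpoints at distance at most `L`. -/
theorem strip_theorem (D W : ℝ) (hD : 0 ≤ D) (hW : 0 ≤ W) : ∃ L : ℝ, 0 < L ∧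
    ∀ a b c : ℝ, a ^ 2 + b ^ 2 = 1 → ∀ (m : ℕ) (z : ℕ → GaussianInt),
      (∀ n ≤ m, Irreducible (z n)) →
      (∀ n < m, (((z (n + 1)).re : ℝ) - (z n).re) ^ 2 + (((z (n + 1)).im : ℝ) - (z n).im) ^ 2
        ≤ D ^ 2) →
      (∀ n ≤ m, |a * (z n).re + b * (z n).im - c| ≤ W) →
      (((z m).re : ℝ) - (z 0).re) ^ 2 + (((z m).im : ℝ) - (z 0).im) ^ 2 ≤ L ^ 2 := by
  obtain ⟨L₁, hL₁, hcor⟩ := no_corridor D W hD hW
  refine ⟨2 * W + L₁, by linarith, ?_⟩
  intro a b c hab m z hprime hstep htube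
  set Δx : ℝ := ((z m).re : ℝ) - (z 0).re with hΔx
  set Δy : ℝ := ((z m).im : ℝ) - (z 0).im with hΔy
  -- along the line
  have h1 : -b * Δx + a * Δy < L₁ := by
    by_contra hc
    push Not at hc
    apply hcor a b c (-b * (z 0).re + a * (z 0).im) hab m z hprime hstep htube le_rfl
    rw [hΔx, hΔy] at hc
    linarith
  have h2 : -L₁ < -b * Δx + a * Δy := by
    by_contra hc
    push Not at hc
    have hab' : (-a) ^ 2 + (-b) ^ 2 = 1 := by linarith [neg_sq a, neg_sq b]
    apply hcor (-a) (-b) (-c) (-(-b * (z 0).re + a * (z 0).im)) hab' m z hprime hstep ?_ ?_ ?_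
    · intro n hn
      have := htube n hn
      have e : -a * ((z n).re : ℝ) + -b * (z n).im - -c = -(a * (z n).re + b * (z n).im - c) := by
        ring
      rw [e, abs_neg]
      exact this
    · apply le_of_eq; ring
    · rw [hΔx, hΔy] at hc
      linarith
  -- across the line
  have h3 : |a * Δx + b * Δy| ≤ 2 * W := by
    have h4 := htube m le_rfl
    have h5 := htube 0 (Nat.zero_le m)
    have e : a * Δx + b * Δy = (a * (z m).re + b * (z m).im - c)
        - (a * (z 0).re + b * (z 0).im - c) := by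
      rw [hΔx, hΔy]; ring
    rw [e]
    refine (abs_sub _ _).trans ?_
    linarith
  have e2 : Δx ^ 2 + Δy ^ 2 = (a * Δx + b * Δy) ^ 2 + (-b * Δx + a * Δy) ^ 2 := by
    linear_combination (-(Δx ^ 2 + Δy ^ 2)) * hab
  rw [e2]
  have h6 : (a * Δx + b * Δy) ^ 2 ≤ (2 * W) ^ 2 := sq_le_sq' (abs_le.1 h3).1 (abs_le.1 h3).2
  have h7 : (-b * Δx + a * Δy) ^ 2 ≤ L₁ ^ 2 := sq_le_sq' h2.le h1.le
  have h8 : 0 ≤ W * L₁ := by positivity
  nlinarith

end Vale.Agent.P015
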