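import Mathlib

/-!
# Gaussian moats: no infinite walk stays near a real line

Blocks of composite Gaussian integers, obtained by the Chinese remainder theorem, lie on or near
every real line, arbitrarily far out in both directions.
-/

namespace Vale.Agent.P015

open Zsqrtd

/-- If a prime `p ≡ 1 (mod 4)` divides the norm of `z`, and the norm is not `p`, then `z` is not a
Gaussian prime. -/
lemma not_irreducible_of_dvd_norm {p : ℕ} (hp : p.Prime) (h4 : p % 4 = 1) (z : GaussianInt)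
    (hd : (p : ℤ) ∣ z.re ^ 2 + z.im ^ 2) (hne : z.re ^ 2 + z.im ^ 2 ≠ (p : ℤ)) :
    ¬ Irreducible z := by
  intro hz
  have : Fact p.Prime := ⟨hp⟩
  obtain ⟨a, b, hab⟩ := Nat.Prime.sq_add_sq (p := p) (by omega)
  set π : GaussianInt := ⟨a, b⟩ with hπ
  have hnorm : ∀ w : GaussianInt, Zsqrtd.norm w = w.re ^ 2 + w.im ^ 2 := by
    intro w; simp [Zsqrtd.norm]; ring
  have hNπ : Zsqrtd.norm π = (p : ℤ) := by
    rw [hnorm]; simp [hπ]; exact_mod_cast hab
  have hnn : ∀ w : GaussianInt, 0 ≤ Zsqrtd.norm w := fun w => Zsqrtd.norm_nonneg (by norm_num) w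
  have hp1 : (1 : ℤ) < p := by exact_mod_cast hp.one_lt
  have hπnu : ¬ IsUnit π := by
    intro h
    have := (Zsqrtd.norm_eq_one_iff).2 h
    rw [hNπ] at this
    simp at this
    exact hp.one_lt.ne' this
  have hπstar : ¬ IsUnit (star π) := by
    intro h
    have := (Zsqrtd.norm_eq_one_iff).2 h
    rw [Zsqrtd.norm_conj, hNπ] at this
    simp at this
    exact hp.one_lt.ne' this
  have hirr : Irreducible π := by
    rw [irreducible_iff]
    refine ⟨hπnu, ?_⟩
    intro x y hxy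
    have h1 : Zsqrtd.norm x * Zsqrtd.norm y = (p : ℤ) := by
      rw [← Zsqrtd.norm_mul, ← hxy, hNπ]
    have h2 : (Zsqrtd.norm x).natAbs * (Zsqrtd.norm y).natAbs = p := by
      have := congrArg Int.natAbs h1
      simpa [Int.natAbs_mul] using this
    have h3 : (Zsqrtd.norm x).natAbs ∣ p := ⟨_, h2.symm⟩
    rcases (Nat.dvd_prime hp).1 h3 with h4 | h4
    · left; exact (Zsqrtd.norm_eq_one_iff).1 h4
    · right
      rw [h4] at h2
      apply (Zsqrtd.norm_eq_one_iff).1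
      have hp0 := hp.pos
      nlinarith
  have hprime : Prime π := hirr.prime
  obtain ⟨m, hm⟩ := hd
  have hzz : z * star z = π * star π * (m : GaussianInt) := by
    rw [← Zsqrtd.norm_eq_mul_conj, ← Zsqrtd.norm_eq_mul_conj, hnorm z, hm, hNπ]
    push_cast
    rfl
  have hdvd : π ∣ z * star z := by
    rw [hzz, mul_assoc]; exact dvd_mul_right _ _
  have hunitnorm : ∀ t : GaussianInt, IsUnit t → Zsqrtd.norm t = 1 := by
    intro t ht
    have h := (Zsqrtd.norm_eq_one_iff).2 ht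
    have := hnn t
    omega
  rcases hprime.dvd_or_dvd hdvd with ⟨t, ht⟩ | ⟨t, ht⟩
  · rcases (irreducible_iff.1 hz).2 ht with h | h
    · exact hπnu h
    · apply hne
      rw [← hnorm, ht, Zsqrtd.norm_mul, hNπ, hunitnorm t h, mul_one]
  · have hz' : z = star π * star t := by
      have := congrArg star ht
      simpa [star_mul, mul_comm] using this
    rcases (irreducible_iff.1 hz).2 hz' with h | h
    · exact hπstar h
    · apply hne
      have hut : IsUnit t := by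
        have := (Zsqrtd.norm_eq_one_iff).2 h
        rw [Zsqrtd.norm_conj] at this
        exact (Zsqrtd.norm_eq_one_iff).1 this
      rw [← hnorm, hz', Zsqrtd.norm_mul, Zsqrtd.norm_conj, Zsqrtd.norm_conj, hNπ, hunitnorm t hut,
        mul_one]

/-- Chinese remainder theorem over the integers. -/
lemma crt_exists {ι : Type*} [DecidableEq ι] (t : Finset ι) (p : ι → ℕ) (hp0 : ∀ i ∈ t, p i ≠ 0)
    (hc : (t : Set ι).Pairwise (Function.onFun Nat.Coprime p)) (r : ι → ℤ) :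
    ∃ X : ℤ, ∀ i ∈ t, (p i : ℤ) ∣ X - r i := by
  classical
  let a : ι → ℕ := fun i => (r i % (p i : ℤ)).toNat
  obtain ⟨k, hk⟩ := Nat.chineseRemainderOfFinset a p t hp0 hc
  refine ⟨k, fun i hi => ?_⟩
  have hk1 := hk i hi
  have h1 : ((k : ℤ)) ≡ (a i : ℤ) [ZMOD (p i : ℤ)] := (Int.natCast_modEq_iff).2 hk1
  have hpos : (0 : ℤ) < p i := by exact_mod_cast Nat.pos_of_ne_zero (hp0 i hi)
  have h2 : (a i : ℤ) = r i % (p i : ℤ) := by
    simp only [a]
    exact Int.toNat_of_nonneg (Int.emod_nonneg _ hpos.ne')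
  have h3 : (a i : ℤ) ≡ r i [ZMOD (p i : ℤ)] := by
    rw [h2]; exact Int.mod_modEq _ _
  have h4 := h1.trans h3
  exact (Int.ModEq.symm h4).dvd

/-- An injective sequence of primes `≡ 1 (mod 4)` above a given bound. -/
lemma exists_primes (M : ℕ) :
    ∃ q : ℕ → ℕ, Function.Injective q ∧ ∀ n, (q n).Prime ∧ q n % 4 = 1 ∧ M < q n := by
  have h : ({p | p.Prime ∧ p ≡ 1 [MOD 4]} \ Set.Iic M).Infinite :=
    (Nat.infinite_setOfPred_prime_modEq_one (k := 4) (by norm_num)).sdiff (Set.finite_Iic M)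
  let e := h.natEmbedding
  refine ⟨fun n => (e n : ℕ), ?_, ?_⟩
  · intro m n hmn
    exact e.injective (Subtype.ext hmn)
  · intro n
    have hn := (e n).2
    refine ⟨hn.1.1, ?_, ?_⟩
    · have := hn.1.2
      simpa [Nat.ModEq] using this
    · simpa using hn.2

/-- The finite box of offsets. -/
noncomputable def box (R : ℕ) : Finset (ℤ × ℤ) := Finset.Icc (-(R : ℤ)) R ×ˢ Finset.Icc (-(R : ℤ)) R

lemma mem_box {R : ℕ} {dx dy : ℤ} (h1 : |dx| ≤ R) (h2 : |dy| ≤ R) : (dx, dy) ∈ box R := by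
  simp only [box, Finset.mem_product, Finset.mem_Icc]
  exact ⟨abs_le.1 h1, abs_le.1 h2⟩

/-- The primes attached to offsets are distinct. -/
lemma primes_pairwise (q : ℕ → ℕ) (hq : Function.Injective q) (hp : ∀ n, (q n).Prime)
    (t : Finset (ℤ × ℤ)) :
    (t : Set (ℤ × ℤ)).Pairwise (Function.onFun Nat.Coprime (fun i => q (Encodable.encode i))) := by
  intro i _ j _ hij
  exact (Nat.coprime_primes (hp _) (hp _)).2 (fun h => hij (Encodable.encode_injective (hq h)))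

/-- A full coset of a large lattice consists of centres of composite boxes. -/
lemma block_coset (R : ℕ) : ∃ (P : ℕ) (X₀ Y₀ : ℤ), 0 < P ∧ ∀ K₁ K₂ dx dy : ℤ, |dx| ≤ R → |dy| ≤ R →
    ¬ Irreducible (⟨X₀ + P * K₁ + dx, Y₀ + P * K₂ + dy⟩ : GaussianInt) := by
  classical
  obtain ⟨q, hq, hqp⟩ := exists_primes 0
  let p : ℤ × ℤ → ℕ := fun i => q (Encodable.encode i)
  have hp0 : ∀ i ∈ box R, p i ≠ 0 := fun i _ => (hqp _).1.ne_zero
  have hc := primes_pairwise q hq (fun n => (hqp n).1) (box R)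
  obtain ⟨X₀, hX⟩ := crt_exists (box R) p hp0 hc (fun i => -i.1)
  obtain ⟨Y₀, hY⟩ := crt_exists (box R) p hp0 hc (fun i => -i.2)
  refine ⟨∏ i ∈ box R, p i, X₀, Y₀, Finset.prod_pos (fun i _ => (hqp _).1.pos), ?_⟩
  intro K₁ K₂ dx dy hdx hdy
  have hmem := mem_box hdx hdy
  have hdP : ((p (dx, dy) : ℕ) : ℤ) ∣ ((∏ i ∈ box R, p i : ℕ) : ℤ) :=
    Int.natCast_dvd_natCast.2 (Finset.dvd_prod_of_mem p hmem)
  have h1 : ((p (dx, dy) : ℕ) : ℤ) ∣ X₀ + (∏ i ∈ box R, p i : ℕ) * K₁ + dx := by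
    have h := dvd_add (hX _ hmem) (dvd_mul_of_dvd_left hdP K₁)
    have e : X₀ + (∏ i ∈ box R, p i : ℕ) * K₁ + dx = X₀ - (-dx) + (∏ i ∈ box R, p i : ℕ) * K₁ := by
      ring
    rw [e]; exact h
  have h2 : ((p (dx, dy) : ℕ) : ℤ) ∣ Y₀ + (∏ i ∈ box R, p i : ℕ) * K₂ + dy := by
    have h := dvd_add (hY _ hmem) (dvd_mul_of_dvd_left hdP K₂)
    have e : Y₀ + (∏ i ∈ box R, p i : ℕ) * K₂ + dy = Y₀ - (-dy) + (∏ i ∈ box R, p i : ℕ) * K₂ := by
      ring
    rw [e]; exact h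
  have hpp := (hqp (Encodable.encode (dx, dy))).1
  have hp4 := (hqp (Encodable.encode (dx, dy))).2.1
  apply not_irreducible_of_dvd_norm hpp hp4
  · simp only
    exact dvd_add (dvd_pow h1 (by norm_num)) (dvd_pow h2 (by norm_num))
  · simp only
    intro hN
    obtain ⟨u, hu⟩ := h1
    obtain ⟨v, hv⟩ := h2
    rw [hu, hv] at hN
    have hpos : (1 : ℤ) < (p (dx, dy) : ℕ) := by exact_mod_cast hpp.one_lt
    have : ((p (dx, dy) : ℕ) : ℤ) * (u ^ 2 + v ^ 2) = 1 := by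
      have hne : ((p (dx, dy) : ℕ) : ℤ) ≠ 0 := by positivity
      apply mul_left_cancel₀ hne
      rw [mul_one]
      have : ((p (dx, dy) : ℕ) : ℤ) = q (Encodable.encode (dx, dy)) := rfl
      linear_combination hN
    have hnn : 0 ≤ u ^ 2 + v ^ 2 := by positivity
    have h0 : u ^ 2 + v ^ 2 ≠ 0 := by
      intro h; rw [h] at this; simp at this
    have : (1 : ℤ) ≤ u ^ 2 + v ^ 2 := by omega
    nlinarith


/-- Solving the norm congruence along a rational line modulo a split prime. -/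
lemma solve_t {p : ℕ} (hp : p.Prime) (h4 : p % 4 = 1) (A B x y : ℤ)
    (hQ : ¬ (p : ℤ) ∣ A ^ 2 + B ^ 2) : ∃ t : ℤ, (p : ℤ) ∣ (x + t * B) ^ 2 + (y - t * A) ^ 2 := by
  have : Fact p.Prime := ⟨hp⟩
  obtain ⟨r, hr⟩ := (ZMod.exists_sq_eq_neg_one_iff (p := p)).2 (by omega)
  set d : ZMod p := (B : ZMod p) - r * A with hd
  have hd0 : d ≠ 0 := by
    intro h0
    apply hQ
    rw [← ZMod.intCast_zmod_eq_zero_iff_dvd]
    have h1 : ((A ^ 2 + B ^ 2 : ℤ) : ZMod p) = d * ((B : ZMod p) + r * A) := by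
      push_cast
      rw [hd]
      linear_combination (-(A : ZMod p) ^ 2) * hr
    rw [h1, h0, zero_mul]
  let τ : ZMod p := -((x : ZMod p) + r * y) / d
  obtain ⟨t, ht⟩ := ZMod.intCast_surjective τ
  refine ⟨t, ?_⟩
  rw [← ZMod.intCast_zmod_eq_zero_iff_dvd]
  push_cast
  rw [ht]
  have hτ : τ * d = -((x : ZMod p) + r * y) := by
    simp only [τ]; field_simp
  have hU : ((x : ZMod p) + τ * B) + r * ((y : ZMod p) - τ * A) = 0 := by
    rw [hd] at hτ
    linear_combination hτ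
  linear_combination (((x : ZMod p) + τ * B) - r * ((y : ZMod p) - τ * A)) * hU
    + ((y : ZMod p) - τ * A) ^ 2 * (-hr)

/-- The norm congruence depends only on `t` modulo `p`. -/
lemma dvd_of_congr {p : ℤ} {A B x y t τ : ℤ} (h1 : p ∣ t - τ)
    (h2 : p ∣ (x + τ * B) ^ 2 + (y - τ * A) ^ 2) : p ∣ (x + t * B) ^ 2 + (y - t * A) ^ 2 := by
  obtain ⟨e, he⟩ := h1
  have ht : t = τ + p * e := by linarith
  subst ht
  have : (x + (τ + p * e) * B) ^ 2 + (y - (τ + p * e) * A) ^ 2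
      = ((x + τ * B) ^ 2 + (y - τ * A) ^ 2)
        + p * (2 * (x + τ * B) * e * B + p * e ^ 2 * B ^ 2 - 2 * (y - τ * A) * e * A
          + p * e ^ 2 * A ^ 2) := by ring
  rw [this]
  exact dvd_add h2 (dvd_mul_right _ _)

lemma big_arith (Y G N' : ℤ) (hY : 1 ≤ Y) (hG : Y + 1 ≤ G) (h : G ^ 2 ≤ N') (h' : N' ≤ Y) :
    False := by
  nlinarith

/-- Composite boxes centred on any integer line, arbitrarily far along the line (one side). -/
lemma int_side (A B k : ℤ) (hc : IsCoprime A B) (R : ℕ) (T : ℤ) :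
    ∃ X Y : ℤ, A * X + B * Y = k ∧ T < -B * X + A * Y ∧
      ∀ dx dy : ℤ, |dx| ≤ R → |dy| ≤ R → ¬ Irreducible (⟨X + dx, Y + dy⟩ : GaussianInt) := by
  classical
  obtain ⟨u, v, huv⟩ := hc
  set x₀ : ℤ := u * k with hx₀
  set y₀ : ℤ := v * k with hy₀
  have hline : A * x₀ + B * y₀ = k := by rw [hx₀, hy₀]; linear_combination k * huv
  set Q : ℤ := A ^ 2 + B ^ 2 with hQdef
  have hQpos : 0 < Q := by
    have h0 : ¬ (A = 0 ∧ B = 0) := by
      rintro ⟨rfl, rfl⟩
      simp at huv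
    by_cases hA : A = 0
    · have hB : B ≠ 0 := fun h => h0 ⟨hA, h⟩
      have : 0 < B ^ 2 := by positivity
      nlinarith [sq_nonneg A]
    · have : 0 < A ^ 2 := by positivity
      nlinarith [sq_nonneg B]
  obtain ⟨q, hq, hqp⟩ := exists_primes Q.toNat
  let p : ℤ × ℤ → ℕ := fun i => q (Encodable.encode i)
  have hpprime : ∀ i, (p i).Prime := fun i => (hqp _).1
  have hp4 : ∀ i, p i % 4 = 1 := fun i => (hqp _).2.1
  have hpQ : ∀ i, ¬ ((p i : ℕ) : ℤ) ∣ A ^ 2 + B ^ 2 := by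
    intro i hd
    have h1 := Int.le_of_dvd hQpos hd
    have h2 : Q.toNat < p i := (hqp _).2.2
    have h3 : (Q.toNat : ℤ) = Q := Int.toNat_of_nonneg hQpos.le
    have h4 : Q < (p i : ℤ) := by rw [← h3]; exact_mod_cast h2
    omega
  have hsolve : ∀ i : ℤ × ℤ, ∃ t : ℤ,
      ((p i : ℕ) : ℤ) ∣ ((x₀ + i.1) + t * B) ^ 2 + ((y₀ + i.2) - t * A) ^ 2 :=
    fun i => solve_t (hpprime i) (hp4 i) A B _ _ (hpQ i)
  choose τ hτ using hsolve
  have hp0 : ∀ i ∈ box R, p i ≠ 0 := fun i _ => (hpprime i).ne_zero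
  have hcop := primes_pairwise q hq (fun n => (hqp n).1) (box R)
  obtain ⟨t₀, ht₀⟩ := crt_exists (box R) p hp0 hcop τ
  set P : ℕ := ∏ i ∈ box R, p i with hP
  have hPpos : 0 < P := Finset.prod_pos (fun i _ => (hpprime i).pos)
  have hPposZ : (1 : ℤ) ≤ (P : ℤ) := by exact_mod_cast hPpos
  set S₀ : ℤ := -B * x₀ + A * y₀ - t₀ * Q with hS₀
  set C : ℤ := (|A| + |B|) * R with hC
  set T' : ℤ := |T| + C + Q * P + 1 with hT'
  have hCnn : 0 ≤ C := by positivity
  have hQP : 1 ≤ Q * P := by nlinarith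
  set K : ℤ := -(|S₀| + T' + 1) with hK
  set t : ℤ := t₀ + P * K with ht
  refine ⟨x₀ + t * B, y₀ - t * A, ?_, ?_, ?_⟩
  · linear_combination hline
  · -- position along the line
    have hs : -B * (x₀ + t * B) + A * (y₀ - t * A) = S₀ - P * K * Q := by
      rw [hS₀, ht, hQdef]; ring
    rw [hs]
    have h1 : S₀ - P * K * Q = S₀ + (Q * P) * (|S₀| + T' + 1) := by rw [hK]; ring
    rw [h1]
    have h2 : 0 ≤ |S₀| := abs_nonneg _
    have h3 : 0 ≤ |T| := abs_nonneg _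
    have h4 : T ≤ |T| := le_abs_self _
    have h5 : -|S₀| ≤ S₀ := neg_abs_le _
    have h6 : 0 < |S₀| + T' + 1 := by omega
    nlinarith
  · intro dx dy hdx hdy
    have hmem := mem_box hdx hdy
    set i : ℤ × ℤ := (dx, dy) with hi
    have hdP : ((p i : ℕ) : ℤ) ∣ (P : ℤ) := Int.natCast_dvd_natCast.2 (Finset.dvd_prod_of_mem p hmem)
    have hdt : ((p i : ℕ) : ℤ) ∣ t - τ i := by
      have h := dvd_add (ht₀ i hmem) (dvd_mul_of_dvd_left hdP K)
      have e : t - τ i = t₀ - τ i + P * K := by rw [ht]; ring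
      rw [e]; exact h
    have hdiv := dvd_of_congr (A := A) (B := B) (x := x₀ + dx) (y := y₀ + dy) hdt (hτ i)
    apply not_irreducible_of_dvd_norm (hpprime i) (hp4 i)
    · simp only
      have e : (x₀ + t * B + dx) ^ 2 + (y₀ - t * A + dy) ^ 2
          = (x₀ + dx + t * B) ^ 2 + (y₀ + dy - t * A) ^ 2 := by ring
      rw [e]; exact hdiv
    · simp only
      intro hN
      -- the point is far out, so its norm exceeds `p i`
      set G : ℤ := -B * (x₀ + t * B + dx) + A * (y₀ - t * A + dy) with hG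
      have hcs : Q * ((x₀ + t * B + dx) ^ 2 + (y₀ - t * A + dy) ^ 2)
          = (A * (x₀ + t * B + dx) + B * (y₀ - t * A + dy)) ^ 2 + G ^ 2 := by
        rw [hQdef, hG]; ring
      have hs : G = (S₀ - P * K * Q) + (-B * dx + A * dy) := by
        rw [hG, hS₀, ht, hQdef]; ring
      have hoff : -C ≤ -B * dx + A * dy := by
        have h1 : |(-B) * dx + A * dy| ≤ |(-B) * dx| + |A * dy| := abs_add_le _ _
        rw [abs_mul, abs_mul, abs_neg] at h1
        have h2 : |B| * |dx| ≤ |B| * R := mul_le_mul_of_nonneg_left hdx (abs_nonneg _)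
        have h3 : |A| * |dy| ≤ |A| * R := mul_le_mul_of_nonneg_left hdy (abs_nonneg _)
        have h4 := (abs_le.1 h1).1
        have hC' : C = |A| * R + |B| * R := by rw [hC]; ring
        rw [hC']
        linarith
      have h1 : S₀ - P * K * Q = S₀ + (Q * P) * (|S₀| + T' + 1) := by rw [hK]; ring
      have h2 : 0 ≤ |S₀| := abs_nonneg _
      have h3 : 0 ≤ |T| := abs_nonneg _
      have h5 : -|S₀| ≤ S₀ := neg_abs_le _
      have h6 : 0 < |S₀| + T' + 1 := by omega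
      have hGbig : Q * P + 1 ≤ G := by
        rw [hs, h1]
        have h7 : |S₀| + T' + 1 ≤ (Q * P) * (|S₀| + T' + 1) := le_mul_of_one_le_left h6.le hQP
        have h8 : T' = |T| + C + Q * P + 1 := hT'
        linarith
      have hpi : ((p i : ℕ) : ℤ) ≤ P := Int.le_of_dvd (by omega) hdP
      have hGsq : G ^ 2 ≤ Q * (p i : ℕ) := by
        have := sq_nonneg (A * (x₀ + t * B + dx) + B * (y₀ - t * A + dy))
        rw [hN] at hcs
        linarith
      have hQpi : Q * ((p i : ℕ) : ℤ) ≤ Q * P := mul_le_mul_of_nonneg_left hpi hQpos.le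
      exact big_arith (Q * P) G _ hQP hGbig hGsq hQpi

/-- Both sides of an integer line. -/
lemma int_both (A B k : ℤ) (hc : IsCoprime A B) (R : ℕ) (T : ℤ) :
    (∃ X Y : ℤ, A * X + B * Y = k ∧ T < -B * X + A * Y ∧
      ∀ dx dy : ℤ, |dx| ≤ R → |dy| ≤ R → ¬ Irreducible (⟨X + dx, Y + dy⟩ : GaussianInt)) ∧
    (∃ X Y : ℤ, A * X + B * Y = k ∧ -B * X + A * Y < -T ∧
      ∀ dx dy : ℤ, |dx| ≤ R → |dy| ≤ R → ¬ Irreducible (⟨X + dx, Y + dy⟩ : GaussianInt)) := by
  refine ⟨int_side A B k hc R T, ?_⟩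
  have hc' : IsCoprime (-A) (-B) := hc.neg_neg
  obtain ⟨X, Y, h1, h2, h3⟩ := int_side (-A) (-B) (-k) hc' R T
  refine ⟨X, Y, by linarith, by linarith, h3⟩

/-- Forward orbit of an irrational rotation: every target is approximated with arbitrarily large
positive multipliers. -/
lemma exists_far (α : ℝ) (hα : Irrational α) (κ ε : ℝ) (hε : 0 < ε) (L : ℤ) :
    ∃ m n : ℤ, L < m ∧ |α * m + n - κ| < ε := by
  obtain ⟨N, hN⟩ := exists_nat_gt (1 / ε)
  have hNpos : 0 < N := by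
    have h : (0 : ℝ) < N := lt_trans (by positivity) hN
    exact_mod_cast h
  obtain ⟨j, k, hk0, _, hd⟩ := Real.exists_int_int_abs_mul_sub_le α hNpos
  set δ : ℝ := k * α - j with hδ
  have hkR : (0 : ℝ) < k := by exact_mod_cast hk0
  have hδ0 : δ ≠ 0 := by
    intro h
    apply hα
    refine ⟨(j : ℚ) / k, ?_⟩
    push_cast
    field_simp
    linarith
  have hδε : |δ| < ε := by
    refine lt_of_le_of_lt hd ?_
    have hN1 : (0 : ℝ) < (N : ℝ) + 1 := by positivity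
    rw [div_lt_iff₀ hN1]
    have := (div_lt_iff₀ hε).1 hN
    nlinarith
  set k₀ : ℤ := |L| + 1 with hk₀
  have hk₀pos : 0 < k₀ := by positivity
  -- the multiplier `k' * k` exceeds `L` as soon as `k₀ ≤ k'`
  have hfar : ∀ k' : ℤ, k₀ ≤ k' → L < k' * k := by
    intro k' hk'
    have h1 : L ≤ |L| := le_abs_self _
    have h2 : k' * 1 ≤ k' * k := mul_le_mul_of_nonneg_left (by omega) (by omega)
    omega
  rcases lt_or_gt_of_ne hδ0 with hneg | hpos
  · -- δ < 0
    set δ' : ℝ := -δ with hδ'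
    have hδ'pos : 0 < δ' := by rw [hδ']; linarith
    set J : ℤ := ⌈κ + k₀ * δ'⌉ + 1 with hJ
    have hJ1 : κ + k₀ * δ' < J := by
      rw [hJ]; push_cast
      have := Int.le_ceil (κ + k₀ * δ')
      linarith
    set k' : ℤ := ⌊((J : ℝ) - κ) / δ'⌋ with hk'
    have hk'1 : (k' : ℝ) ≤ ((J : ℝ) - κ) / δ' := Int.floor_le _
    have hk'2 : ((J : ℝ) - κ) / δ' < k' + 1 := Int.lt_floor_add_one _
    have hk'3 : k₀ ≤ k' := by
      apply Int.le_floor.2
      rw [le_div_iff₀ hδ'pos]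
      linarith
    refine ⟨k' * k, J - k' * j, hfar k' hk'3, ?_⟩
    have h1 : (k' : ℝ) * δ' ≤ (J : ℝ) - κ := (le_div_iff₀ hδ'pos).1 hk'1
    have h2 : (J : ℝ) - κ < (k' + 1) * δ' := (div_lt_iff₀ hδ'pos).1 hk'2
    have e : α * ((k' * k : ℤ) : ℝ) + ((J - k' * j : ℤ) : ℝ) - κ = ((J : ℝ) - κ) - k' * δ' := by
      rw [hδ', hδ]; push_cast; ring
    rw [e, abs_lt]
    have hδabs : |δ| = δ' := by rw [hδ', abs_of_neg hneg]
    rw [hδabs] at hδε
    constructor <;> nlinarith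
  · -- δ > 0
    set J : ℤ := ⌊κ - k₀ * δ⌋ - 1 with hJ
    have hJ1 : (J : ℝ) < κ - k₀ * δ := by
      rw [hJ]; push_cast
      have := Int.floor_le (κ - k₀ * δ)
      linarith
    set k' : ℤ := ⌊(κ - (J : ℝ)) / δ⌋ with hk'
    have hk'1 : (k' : ℝ) ≤ (κ - (J : ℝ)) / δ := Int.floor_le _
    have hk'2 : (κ - (J : ℝ)) / δ < k' + 1 := Int.lt_floor_add_one _
    have hk'3 : k₀ ≤ k' := by
      apply Int.le_floor.2
      rw [le_div_iff₀ hpos]
      linarith
    refine ⟨k' * k, J - k' * j, hfar k' hk'3, ?_⟩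
    have h1 : (k' : ℝ) * δ ≤ κ - (J : ℝ) := (le_div_iff₀ hpos).1 hk'1
    have h2 : κ - (J : ℝ) < (k' + 1) * δ := (div_lt_iff₀ hpos).1 hk'2
    have e : α * ((k' * k : ℤ) : ℝ) + ((J - k' * j : ℤ) : ℝ) - κ = (k' : ℝ) * δ - (κ - (J : ℝ)) := by
      rw [hδ]; push_cast; ring
    rw [e, abs_lt]
    have hδabs : |δ| = δ := abs_of_pos hpos
    rw [hδabs] at hδε
    constructor <;> nlinarith

end Vale.Agent.P015
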