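import Vale.Agent.P015.Tube

/-!
# No infinite walk on Gaussian primes stays in a tube around a real line
-/

namespace Vale.Agent.P015

open Filter

/-- All lattice points in the box of radius `R` around `(X, Y)` fail to be Gaussian primes. -/
def NB (R : ℕ) (X Y : ℤ) : Prop :=
  ∀ dx dy : ℤ, |dx| ≤ R → |dy| ≤ R → ¬ Irreducible (⟨X + dx, Y + dy⟩ : GaussianInt)

/-- Composite boxes of every radius within `E` of the line `a x + b y = c`, arbitrarily far in
both directions along the line. -/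
def HasBlocks (a b c E : ℝ) : Prop :=
  ∀ (R : ℕ) (T : ℝ),
    (∃ X Y : ℤ, |a * X + b * Y - c| ≤ E ∧ T < -b * X + a * Y ∧ NB R X Y) ∧
    (∃ X Y : ℤ, |a * X + b * Y - c| ≤ E ∧ -b * X + a * Y < -T ∧ NB R X Y)

lemma sign_pos_far {a b c X Y T : ℝ} (hb : b ≠ 0) (he : |a * X + b * Y - c| ≤ 1)
    (hX : |T| * |b| + |a| * (|c| + 1) < (a ^ 2 + b ^ 2) * X) :
    b * (-b * X + a * Y) < -(|T| * |b|) := by
  have h1 : b * (-b * X + a * Y) = a * (a * X + b * Y) - (a ^ 2 + b ^ 2) * X := by ring
  have h2 : |a * X + b * Y| ≤ |c| + 1 := by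
    have : a * X + b * Y = (a * X + b * Y - c) + c := by ring
    rw [this]
    refine (abs_add_le _ _).trans ?_
    linarith
  have h3 : a * (a * X + b * Y) ≤ |a| * (|c| + 1) := by
    refine (le_abs_self _).trans ?_
    rw [abs_mul]
    exact mul_le_mul_of_nonneg_left h2 (abs_nonneg _)
  rw [h1]
  linarith

lemma sign_neg_far {a b c X Y T : ℝ} (hb : b ≠ 0) (he : |a * X + b * Y - c| ≤ 1)
    (hX : (a ^ 2 + b ^ 2) * X < -(|T| * |b| + |a| * (|c| + 1))) :
    |T| * |b| < b * (-b * X + a * Y) := by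
  have h1 : b * (-b * X + a * Y) = a * (a * X + b * Y) - (a ^ 2 + b ^ 2) * X := by ring
  have h2 : |a * X + b * Y| ≤ |c| + 1 := by
    have : a * X + b * Y = (a * X + b * Y - c) + c := by ring
    rw [this]
    refine (abs_add_le _ _).trans ?_
    linarith
  have h3 : -(|a| * (|c| + 1)) ≤ a * (a * X + b * Y) := by
    have h4 : |a * (a * X + b * Y)| ≤ |a| * (|c| + 1) := by
      rw [abs_mul]
      exact mul_le_mul_of_nonneg_left h2 (abs_nonneg _)
    have := neg_abs_le (a * (a * X + b * Y))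
    linarith
  rw [h1]
  linarith

/-- From a bound on `b * s` to one on `s`. -/
lemma s_of_mul_lt {b s T : ℝ} (hb : 0 < b) (h : b * s < -(|T| * |b|)) : s < -T := by
  rw [abs_of_pos hb] at h
  have h1 : s < -|T| := by
    by_contra hc
    push Not at hc
    nlinarith
  have := le_abs_self T
  linarith

lemma s_of_mul_lt' {b s T : ℝ} (hb : b < 0) (h : b * s < -(|T| * |b|)) : T < s := by
  rw [abs_of_neg hb] at h
  have h1 : |T| < s := by
    by_contra hc
    push Not at hc
    nlinarith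
  have := le_abs_self T
  linarith

lemma s_of_lt_mul {b s T : ℝ} (hb : 0 < b) (h : |T| * |b| < b * s) : T < s := by
  rw [abs_of_pos hb] at h
  have h1 : |T| < s := by
    by_contra hc
    push Not at hc
    nlinarith
  have := le_abs_self T
  linarith

lemma s_of_lt_mul' {b s T : ℝ} (hb : b < 0) (h : |T| * |b| < b * s) : s < -T := by
  rw [abs_of_neg hb] at h
  have h1 : s < -|T| := by
    by_contra hc
    push Not at hc
    nlinarith
  have := le_abs_self T
  linarith

/-- Blocks near a line of irrational slope. -/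
lemma blocks_irrational (a b c : ℝ) (hb : b ≠ 0) (hirr : Irrational (a / b)) :
    HasBlocks a b c 1 := by
  intro R T
  obtain ⟨P, X₀, Y₀, hP, hNB⟩ := block_coset R
  have hPR : (0 : ℝ) < P := by exact_mod_cast hP
  have hP1 : (1 : ℝ) ≤ P := by exact_mod_cast hP
  have hbabs : 0 < |b| := abs_pos.2 hb
  set α : ℝ := a / b with hα
  set κ : ℝ := (c / b - α * X₀ - Y₀) / P with hκ
  set ε : ℝ := 1 / (|b| * P) with hε
  have hεpos : 0 < ε := by positivity
  set Q : ℝ := a ^ 2 + b ^ 2 with hQ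
  have hQpos : 0 < Q := by rw [hQ]; positivity
  set B₀ : ℝ := |(X₀ : ℝ)| + (|T| * |b| + |a| * (|c| + 1)) / Q + 1 with hB₀
  set L : ℤ := ⌈B₀⌉ with hL
  have hLB : B₀ ≤ L := Int.le_ceil _
  have hB₀pos : 0 < B₀ := by rw [hB₀]; positivity
  have hLpos : (0 : ℝ) < L := lt_of_lt_of_le hB₀pos hLB
  -- common properties of a lattice coset point
  have hcommon : ∀ K₁ K₂ : ℤ, |α * K₁ + K₂ - κ| < ε →
      |a * ((X₀ + P * K₁ : ℤ) : ℝ) + b * ((Y₀ + P * K₂ : ℤ) : ℝ) - c| ≤ 1 := by
    intro K₁ K₂ h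
    have e : a * ((X₀ + P * K₁ : ℤ) : ℝ) + b * ((Y₀ + P * K₂ : ℤ) : ℝ) - c
        = b * P * (α * K₁ + K₂ - κ) := by
      rw [hκ, hα]; push_cast; field_simp; ring
    rw [e, abs_mul, abs_mul]
    have hP' : |(P : ℝ)| = P := abs_of_pos hPR
    rw [hP']
    have hb' : 0 < |b| * P := by positivity
    have : |b| * P * |α * K₁ + K₂ - κ| < |b| * P * ε := mul_lt_mul_of_pos_left h hb'
    have h2 : |b| * P * ε = 1 := by rw [hε]; field_simp
    linarith
  -- both far points
  obtain ⟨K₁, K₂, hK₁, hK₂⟩ := exists_far α hirr κ ε hεpos L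
  obtain ⟨m, n, hm, hmn⟩ := exists_far (-α) hirr.neg κ ε hεpos L
  have hmn' : |α * ((-m : ℤ) : ℝ) + n - κ| < ε := by
    have : α * ((-m : ℤ) : ℝ) + n - κ = -α * m + n - κ := by push_cast; ring
    rw [this]; exact hmn
  -- X coordinates
  have hXbig : (|T| * |b| + |a| * (|c| + 1)) < Q * ((X₀ + P * K₁ : ℤ) : ℝ) := by
    have h1 : (L : ℝ) < K₁ := by exact_mod_cast hK₁
    have h2 : (K₁ : ℝ) ≤ P * K₁ := by
      have : (0 : ℝ) < K₁ := by linarith
      nlinarith
    have h3 : -|(X₀ : ℝ)| ≤ X₀ := neg_abs_le _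
    have h4 : ((X₀ + P * K₁ : ℤ) : ℝ) = X₀ + P * K₁ := by push_cast; ring
    rw [h4]
    have h5 : (|T| * |b| + |a| * (|c| + 1)) / Q + 1 ≤ X₀ + P * K₁ := by
      rw [hB₀] at hLB
      linarith
    have h6 : (|T| * |b| + |a| * (|c| + 1)) / Q < X₀ + P * K₁ := by linarith
    exact (div_lt_iff₀' hQpos).1 h6
  have hXsmall : Q * ((X₀ + P * (-m) : ℤ) : ℝ) < -(|T| * |b| + |a| * (|c| + 1)) := by
    have h1 : (L : ℝ) < m := by exact_mod_cast hm
    have h2 : (m : ℝ) ≤ P * m := by
      have : (0 : ℝ) < m := by linarith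
      nlinarith
    have h3 : (X₀ : ℝ) ≤ |(X₀ : ℝ)| := le_abs_self _
    have h4 : ((X₀ + P * (-m) : ℤ) : ℝ) = X₀ - P * m := by push_cast; ring
    rw [h4]
    have h5 : (|T| * |b| + |a| * (|c| + 1)) / Q + 1 ≤ P * m - X₀ := by
      rw [hB₀] at hLB
      linarith
    have h6 : (|T| * |b| + |a| * (|c| + 1)) / Q < P * m - X₀ := by linarith
    have h7 := (div_lt_iff₀' hQpos).1 h6
    nlinarith
  have hplus := hcommon K₁ K₂ hK₂
  have hminus := hcommon (-m) n hmn'
  have hNBplus : NB R (X₀ + P * K₁) (Y₀ + P * K₂) := fun dx dy h1 h2 => hNB K₁ K₂ dx dy h1 h2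
  have hNBminus : NB R (X₀ + P * (-m)) (Y₀ + P * n) := fun dx dy h1 h2 => hNB (-m) n dx dy h1 h2
  have h1 := sign_pos_far hb hplus hXbig
  have h2 := sign_neg_far hb hminus hXsmall
  rcases lt_or_gt_of_ne hb with hneg | hpos
  · exact ⟨⟨_, _, hplus, s_of_mul_lt' hneg h1, hNBplus⟩, ⟨_, _, hminus, s_of_lt_mul' hneg h2, hNBminus⟩⟩
  · exact ⟨⟨_, _, hminus, s_of_lt_mul hpos h2, hNBminus⟩, ⟨_, _, hplus, s_of_mul_lt hpos h1, hNBplus⟩⟩

/-- Blocks near a line of rational slope. -/
lemma blocks_rational (a b c lam : ℝ) (A B : ℤ) (hlam : lam ≠ 0) (ha : a = lam * A) (hb : b = lam * B)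
    (hc : IsCoprime A B) : HasBlocks a b c |lam| := by
  intro R T
  have habs : 0 < |lam| := abs_pos.2 hlam
  set k : ℤ := ⌊c / lam⌋ with hk
  set L : ℤ := ⌈|T| / |lam|⌉ with hL
  have hLT : |T| ≤ L * |lam| := by
    have := Int.le_ceil (|T| / |lam|)
    exact (div_le_iff₀ habs).1 this
  have hdist : ∀ X Y : ℤ, A * X + B * Y = k → |a * X + b * Y - c| ≤ |lam| := by
    intro X Y h
    have h' : (A : ℝ) * X + B * Y = k := by exact_mod_cast h
    have e : a * X + b * Y - c = lam * ((k : ℝ) - c / lam) := by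
      rw [ha, hb, ← h']; field_simp
    rw [e, abs_mul]
    have h1 : |(k : ℝ) - c / lam| ≤ 1 := by
      rw [abs_le]
      have h2 := Int.floor_le (c / lam)
      have h3 := Int.lt_floor_add_one (c / lam)
      rw [← hk] at h2 h3
      constructor <;> linarith
    nlinarith
  have hs : ∀ X Y : ℤ, -b * X + a * Y = lam * ((-B * X + A * Y : ℤ) : ℝ) := by
    intro X Y; rw [ha, hb]; push_cast; ring
  obtain ⟨⟨X₁, Y₁, h1, h2, h3⟩, ⟨X₂, Y₂, h4, h5, h6⟩⟩ := int_both A B k hc R L
  have h2' : (L : ℝ) < ((-B * X₁ + A * Y₁ : ℤ) : ℝ) := by exact_mod_cast h2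
  have h5' : ((-B * X₂ + A * Y₂ : ℤ) : ℝ) < -(L : ℝ) := by exact_mod_cast h5
  have hTabs := le_abs_self T
  have hTabs' := neg_abs_le T
  rcases lt_or_gt_of_ne hlam with hneg | hpos
  · have hl : |lam| = -lam := abs_of_neg hneg
    rw [hl] at hLT
    refine ⟨⟨X₂, Y₂, hdist _ _ h4, ?_, h6⟩, ⟨X₁, Y₁, hdist _ _ h1, ?_, h3⟩⟩
    · rw [hs]; nlinarith
    · rw [hs]; nlinarith
  · have hl : |lam| = lam := abs_of_pos hpos
    rw [hl] at hLT
    refine ⟨⟨X₁, Y₁, hdist _ _ h1, ?_, h3⟩, ⟨X₂, Y₂, hdist _ _ h4, ?_, h6⟩⟩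
    · rw [hs]; nlinarith
    · rw [hs]; nlinarith

/-- Blocks near every real line. -/
lemma blocks_exist (a b c : ℝ) (hab : a ≠ 0 ∨ b ≠ 0) : ∃ E : ℝ, 0 ≤ E ∧ HasBlocks a b c E := by
  by_cases hb : b = 0
  · have ha : a ≠ 0 := by
      rcases hab with h | h
      · exact h
      · exact absurd hb h
    refine ⟨|a|, abs_nonneg _, ?_⟩
    apply blocks_rational a b c a 1 0 ha (by simp) (by simp [hb]) isCoprime_one_left
  · by_cases hirr : Irrational (a / b)
    · exact ⟨1, zero_le_one, blocks_irrational a b c hb hirr⟩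
    · have hq : ∃ r : ℚ, (r : ℝ) = a / b := by
        simpa [Irrational] using hirr
      obtain ⟨r, hr⟩ := hq
      have hden : (r.den : ℝ) ≠ 0 := by exact_mod_cast r.den_nz
      refine ⟨|b / r.den|, abs_nonneg _, ?_⟩
      apply blocks_rational a b c (b / r.den) r.num r.den (div_ne_zero hb hden)
      · have h1 : (r : ℝ) = r.num / r.den := by exact_mod_cast (Rat.num_div_den r).symm
        have h2 : a = (r : ℝ) * b := by rw [hr]; field_simp
        rw [h2, h1]; push_cast; ring
      · push_cast; field_simp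
      · rw [Int.isCoprime_iff_gcd_eq_one]
        simpa [Int.gcd] using r.reduced


/-- A lattice point near a block centre in both line coordinates lies in the box around it. -/
lemma in_box (a b c E U V : ℝ) (x y X Y : ℤ) (hQ : 0 < a ^ 2 + b ^ 2)
    (h1 : |a * X + b * Y - c| ≤ E) (h2 : |a * x + b * y - c| ≤ U)
    (h3 : |(-b * x + a * y) - (-b * X + a * Y)| ≤ V) :
    |((x - X : ℤ) : ℝ)| ≤ (|a| + |b|) * (U + E + V) / (a ^ 2 + b ^ 2) ∧
    |((y - Y : ℤ) : ℝ)| ≤ (|a| + |b|) * (U + E + V) / (a ^ 2 + b ^ 2) := by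
  set du : ℝ := (a * x + b * y - c) - (a * X + b * Y - c) with hdu
  set ds : ℝ := (-b * x + a * y) - (-b * X + a * Y) with hds
  have hduabs : |du| ≤ U + E := (abs_sub _ _).trans (add_le_add h2 h1)
  have hU : 0 ≤ U := (abs_nonneg _).trans h2
  have hE : 0 ≤ E := (abs_nonneg _).trans h1
  have hV : 0 ≤ V := (abs_nonneg _).trans h3
  have e1 : (a ^ 2 + b ^ 2) * ((x - X : ℤ) : ℝ) = a * du - b * ds := by
    rw [hdu, hds]; push_cast; ring
  have e2 : (a ^ 2 + b ^ 2) * ((y - Y : ℤ) : ℝ) = b * du + a * ds := by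
    rw [hdu, hds]; push_cast; ring
  have ha := abs_nonneg a
  have hb := abs_nonneg b
  have m1 : |a| * |du| ≤ |a| * (U + E + V) :=
    mul_le_mul_of_nonneg_left (by linarith) ha
  have m2 : |b| * |du| ≤ |b| * (U + E + V) :=
    mul_le_mul_of_nonneg_left (by linarith) hb
  have m3 : |a| * |ds| ≤ |a| * (U + E + V) :=
    mul_le_mul_of_nonneg_left (by linarith) ha
  have m4 : |b| * |ds| ≤ |b| * (U + E + V) :=
    mul_le_mul_of_nonneg_left (by linarith) hb
  constructor
  · rw [le_div_iff₀ hQ]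
    have h4 : |(a ^ 2 + b ^ 2) * ((x - X : ℤ) : ℝ)| ≤ (|a| + |b|) * (U + E + V) := by
      rw [e1]
      refine (abs_sub _ _).trans ?_
      rw [abs_mul, abs_mul]
      nlinarith
    rw [abs_mul, abs_of_pos hQ] at h4
    linarith
  · rw [le_div_iff₀ hQ]
    have h4 : |(a ^ 2 + b ^ 2) * ((y - Y : ℤ) : ℝ)| ≤ (|a| + |b|) * (U + E + V) := by
      rw [e2]
      refine (abs_add_le _ _).trans ?_
      rw [abs_mul, abs_mul]
      nlinarith
    rw [abs_mul, abs_of_pos hQ] at h4
    linarith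

/-- **Main theorem.** For every real line `a x + b y = c` and every prescribed width `W₀` there is
a nondecreasing, unbounded width function `f ≥ W₀` such that, for every `D`, no infinite sequence of
distinct Gaussian primes with successive distances at most `D` stays in the tube
`|a x + b y - c| ≤ f(|-b x + a y|)` around the line. -/
theorem no_path_in_tube (a b c : ℝ) (hab : a ≠ 0 ∨ b ≠ 0) (W₀ : ℝ) :
    ∃ f : ℝ → ℝ, Monotone f ∧ Tendsto f atTop atTop ∧ (∀ t, W₀ ≤ f t) ∧
      ∀ (D : ℝ) (z : ℕ → GaussianInt), Function.Injective z → (∀ n, Irreducible (z n)) →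
        (∀ n, (((z (n + 1)).re : ℝ) - (z n).re) ^ 2 + (((z (n + 1)).im : ℝ) - (z n).im) ^ 2 ≤ D ^ 2) →
        (∀ n, |a * (z n).re + b * (z n).im - c| ≤ f |-b * (z n).re + a * (z n).im|) → False := by
  classical
  obtain ⟨E, hE0, hE⟩ := blocks_exist a b c hab
  set C : ℝ := |a| + |b| with hC
  have hCnn : 0 ≤ C := by positivity
  set Q : ℝ := a ^ 2 + b ^ 2 with hQ
  have hQpos : 0 < Q := by
    rcases hab with h | h
    · have : 0 < a ^ 2 := by positivity
      rw [hQ]; positivity
    · have : 0 < b ^ 2 := by positivity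
      rw [hQ]; positivity
  let Rad : ℕ → ℕ := fun k => ⌈C * (|W₀| + k + E + C * k) / Q⌉₊
  have hE1 : ∀ (k : ℕ) (T : ℝ), ∃ X Y : ℤ, |a * X + b * Y - c| ≤ E ∧ T < -b * X + a * Y ∧
      NB (Rad k) X Y := fun k T => (hE (Rad k) T).1
  have hE2 : ∀ (k : ℕ) (T : ℝ), ∃ X Y : ℤ, |a * X + b * Y - c| ≤ E ∧ -b * X + a * Y < -T ∧
      NB (Rad k) X Y := fun k T => (hE (Rad k) T).2
  choose X₁ Y₁ h1u h1s h1n using hE1
  choose X₂ Y₂ h2u h2s h2n using hE2
  obtain ⟨τ, hτ0, hτs⟩ : ∃ τ : ℕ → ℝ, τ 0 = 0 ∧ ∀ k, τ (k + 1) = max (τ k + 1)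
      (|-b * X₁ (k + 1) (τ k) + a * Y₁ (k + 1) (τ k)| + |-b * X₂ (k + 1) (τ k) + a * Y₂ (k + 1) (τ k)|
        + C * ((k + 1 : ℕ) : ℝ) + 1) :=
    ⟨fun n => Nat.rec 0 (fun k t => max (t + 1)
      (|-b * X₁ (k + 1) t + a * Y₁ (k + 1) t| + |-b * X₂ (k + 1) t + a * Y₂ (k + 1) t|
        + C * ((k + 1 : ℕ) : ℝ) + 1)) n, rfl, fun k => rfl⟩
  have hτstep : ∀ k, τ k + 1 ≤ τ (k + 1) := fun k => by rw [hτs]; exact le_max_left _ _
  have hτmono : Monotone τ := monotone_nat_of_le_succ (fun k => by linarith [hτstep k])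
  have hτge : ∀ k : ℕ, (k : ℝ) ≤ τ k := by
    intro k
    induction k with
    | zero => simp [hτ0]
    | succ k ih => push_cast; linarith [hτstep k]
  have hne : ∀ t : ℝ, ({k : ℕ | t ≤ τ k}).Nonempty := by
    intro t
    obtain ⟨k, hk⟩ := exists_nat_ge t
    exact ⟨k, hk.trans (hτge k)⟩
  let κ : ℝ → ℕ := fun t => sInf {k : ℕ | t ≤ τ k}
  have hκmem : ∀ t, t ≤ τ (κ t) := fun t => Nat.sInf_mem (hne t)
  have hκle : ∀ t k, t ≤ τ k → κ t ≤ k := fun t k h => Nat.sInf_le h
  refine ⟨fun t => W₀ + (κ t : ℝ), ?_, ?_, ?_, ?_⟩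
  · intro t₁ t₂ h
    have : κ t₁ ≤ κ t₂ := hκle _ _ (h.trans (hκmem t₂))
    have h' : (κ t₁ : ℝ) ≤ κ t₂ := by exact_mod_cast this
    linarith
  · rw [tendsto_atTop_atTop]
    intro M
    obtain ⟨m, hm⟩ := exists_nat_ge (M - W₀)
    refine ⟨τ m + 1, fun t ht => ?_⟩
    have h1 : m < κ t := by
      by_contra hc
      push Not at hc
      have := hτmono hc
      have h2 := hκmem t
      linarith
    have h2 : (m : ℝ) < κ t := by exact_mod_cast h1
    linarith
  · intro t
    have : (0 : ℝ) ≤ κ t := Nat.cast_nonneg _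
    linarith
  · intro D z hinj hprime hstep htube
    set x : ℕ → ℝ := fun n => ((z n).re : ℝ) with hx
    set y : ℕ → ℝ := fun n => ((z n).im : ℝ) with hy
    set s : ℕ → ℝ := fun n => -b * x n + a * y n with hs
    -- the level
    obtain ⟨K, hKD, hKs⟩ : ∃ K : ℕ, |D| ≤ K ∧ |s 0| ≤ τ K := by
      obtain ⟨K₁, hK₁⟩ := exists_nat_ge |D|
      obtain ⟨K₂, hK₂⟩ := exists_nat_ge |s 0|
      refine ⟨max K₁ K₂, ?_, ?_⟩
      · refine hK₁.trans ?_
        exact_mod_cast le_max_left K₁ K₂
      · refine hK₂.trans (le_trans ?_ (hτge _))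
        exact_mod_cast le_max_right K₁ K₂
    set S₁ : ℝ := -b * X₁ (K + 1) (τ K) + a * Y₁ (K + 1) (τ K) with hS₁
    set S₂ : ℝ := -b * X₂ (K + 1) (τ K) + a * Y₂ (K + 1) (τ K) with hS₂
    have hS₁T : τ K < S₁ := h1s (K + 1) (τ K)
    have hS₂T : S₂ < -τ K := h2s (K + 1) (τ K)
    have hτK1 : |S₁| + |S₂| + C * ((K + 1 : ℕ) : ℝ) + 1 ≤ τ (K + 1) := by
      rw [hτs]; exact le_max_right _ _
    set V : ℝ := C * ((K + 1 : ℕ) : ℝ) with hV
    have hVnn : 0 ≤ V := by positivity
    -- the step bound along the line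
    have hstep' : ∀ n, |s (n + 1) - s n| ≤ V := by
      intro n
      have h1 := hstep n
      have hdx : |x (n + 1) - x n| ≤ |D| := by
        apply sq_le_sq.1
        have := sq_nonneg (y (n + 1) - y n)
        simp only [hx, hy] at *
        linarith
      have hdy : |y (n + 1) - y n| ≤ |D| := by
        apply sq_le_sq.1
        have := sq_nonneg (x (n + 1) - x n)
        simp only [hx, hy] at *
        linarith
      have e : s (n + 1) - s n = -b * (x (n + 1) - x n) + a * (y (n + 1) - y n) := by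
        simp only [hs]; ring
      rw [e]
      refine (abs_add_le _ _).trans ?_
      rw [abs_mul, abs_mul, abs_neg]
      have hD1 : |D| ≤ ((K + 1 : ℕ) : ℝ) := by push_cast; linarith
      have h2 : |b| * |x (n + 1) - x n| ≤ |b| * ((K + 1 : ℕ) : ℝ) :=
        mul_le_mul_of_nonneg_left (hdx.trans hD1) (abs_nonneg _)
      have h3 : |a| * |y (n + 1) - y n| ≤ |a| * ((K + 1 : ℕ) : ℝ) :=
        mul_le_mul_of_nonneg_left (hdy.trans hD1) (abs_nonneg _)
      rw [hV, hC]
      linarith
    -- tube width inside the level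
    have hwidth : ∀ n, S₂ < s n → s n < S₁ → |a * x n + b * y n - c| ≤ |W₀| + ((K + 1 : ℕ) : ℝ) := by
      intro n h1 h2
      have h3 : |s n| ≤ |S₁| + |S₂| := by
        rw [abs_le]
        have := le_abs_self S₁
        have := neg_abs_le S₂
        have := abs_nonneg S₁
        have := abs_nonneg S₂
        constructor <;> linarith
      have h4 : |s n| ≤ τ (K + 1) := by linarith
      have h5 := hκle _ _ h4
      have h6 : (κ |s n| : ℝ) ≤ ((K + 1 : ℕ) : ℝ) := by exact_mod_cast h5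
      have h7 := htube n
      simp only at h7
      have h8 := le_abs_self W₀
      have h9 : a * x n + b * y n - c = a * ((z n).re : ℝ) + b * (z n).im - c := rfl
      rw [h9]
      refine h7.trans ?_
      simp only [hs, hx, hy] at h6
      linarith
    -- radius of the boxes
    have hRad : C * ((|W₀| + ((K + 1 : ℕ) : ℝ)) + E + V) / Q ≤ (Rad (K + 1) : ℝ) := by
      have : C * ((|W₀| + ((K + 1 : ℕ) : ℝ)) + E + V) / Q
          = C * (|W₀| + ((K + 1 : ℕ) : ℝ) + E + C * ((K + 1 : ℕ) : ℝ)) / Q := by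
        rw [hV]
      rw [this]
      exact Nat.le_ceil _
    -- a point in the tube at a block position is composite
    have hblock : ∀ n (X Y : ℤ), |a * X + b * Y - c| ≤ E → NB (Rad (K + 1)) X Y →
        |a * x n + b * y n - c| ≤ |W₀| + ((K + 1 : ℕ) : ℝ) →
        |s n - (-b * X + a * Y)| ≤ V → False := by
      intro n X Y h1 h2 h3 h4
      obtain ⟨h5, h6⟩ := in_box a b c E _ V (z n).re (z n).im X Y hQpos h1 h3 h4
      have h7 : |(z n).re - X| ≤ (Rad (K + 1) : ℤ) := by
        have : |(((z n).re - X : ℤ) : ℝ)| ≤ (Rad (K + 1) : ℝ) := h5.trans hRad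
        exact_mod_cast this
      have h8 : |(z n).im - Y| ≤ (Rad (K + 1) : ℤ) := by
        have : |(((z n).im - Y : ℤ) : ℝ)| ≤ (Rad (K + 1) : ℝ) := h6.trans hRad
        exact_mod_cast this
      apply h2 _ _ h7 h8
      have e : (⟨X + ((z n).re - X), Y + ((z n).im - Y)⟩ : GaussianInt) = z n := by
        ext <;> simp
      rw [e]
      exact hprime n
    -- confinement
    have hconf : ∀ n, S₂ < s n ∧ s n < S₁ := by
      intro n
      induction n with
      | zero =>
        have h1 := abs_le.1 hKs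
        exact ⟨by linarith [h1.1], by linarith [h1.2]⟩
      | succ n ih =>
        obtain ⟨h1, h2⟩ := ih
        have hw := hwidth n h1 h2
        have h3 : s n < S₁ - V := by
          by_contra hc
          push Not at hc
          apply hblock n _ _ (h1u (K + 1) (τ K)) (h1n (K + 1) (τ K)) hw
          rw [← hS₁, abs_le]
          constructor <;> linarith
        have h4 : S₂ + V < s n := by
          by_contra hc
          push Not at hc
          apply hblock n _ _ (h2u (K + 1) (τ K)) (h2n (K + 1) (τ K)) hw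
          rw [← hS₂, abs_le]
          constructor <;> linarith
        have h5 := abs_le.1 (hstep' n)
        exact ⟨by linarith [h5.1], by linarith [h5.2]⟩
    -- everything stays in a bounded region
    set U : ℝ := |W₀| + ((K + 1 : ℕ) : ℝ) with hU
    set M : ℝ := |S₁| + |S₂| with hM
    have hMnn : 0 ≤ M := by positivity
    have hUnn : 0 ≤ U := by positivity
    set B : ℝ := (|a| * (U + |c|) + |b| * M + |b| * (U + |c|) + |a| * M) / Q with hB
    have hbound : ∀ n, |x n| ≤ B ∧ |y n| ≤ B := by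
      intro n
      obtain ⟨h1, h2⟩ := hconf n
      have h3 := hwidth n h1 h2
      have h4 : |s n| ≤ M := by
        rw [abs_le, hM]
        have := le_abs_self S₁
        have := neg_abs_le S₂
        have := abs_nonneg S₁
        have := abs_nonneg S₂
        constructor <;> linarith
      have h5 : |a * x n + b * y n| ≤ U + |c| := by
        have : a * x n + b * y n = (a * x n + b * y n - c) + c := by ring
        rw [this]
        refine (abs_add_le _ _).trans ?_
        linarith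
      have e1 : Q * x n = a * (a * x n + b * y n) - b * s n := by
        simp only [hs, hQ]; ring
      have e2 : Q * y n = b * (a * x n + b * y n) + a * s n := by
        simp only [hs, hQ]; ring
      have ha := abs_nonneg a
      have hb := abs_nonneg b
      have m1 := mul_le_mul_of_nonneg_left h5 ha
      have m2 := mul_le_mul_of_nonneg_left h5 hb
      have m3 := mul_le_mul_of_nonneg_left h4 ha
      have m4 := mul_le_mul_of_nonneg_left h4 hb
      have hbnn1 : 0 ≤ |b| * (U + |c|) := by positivity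
      have hbnn2 : 0 ≤ |a| * (U + |c|) := by positivity
      have hbnn3 : 0 ≤ |a| * M := by positivity
      have hbnn4 : 0 ≤ |b| * M := by positivity
      constructor
      · rw [hB, le_div_iff₀ hQpos]
        have h6 : |Q * x n| ≤ |a| * (U + |c|) + |b| * M := by
          rw [e1]
          refine (abs_sub _ _).trans ?_
          rw [abs_mul, abs_mul]
          linarith
        rw [abs_mul, abs_of_pos hQpos] at h6
        linarith
      · rw [hB, le_div_iff₀ hQpos]
        have h6 : |Q * y n| ≤ |b| * (U + |c|) + |a| * M := by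
          rw [e2]
          refine (abs_add_le _ _).trans ?_
          rw [abs_mul, abs_mul]
          linarith
        rw [abs_mul, abs_of_pos hQpos] at h6
        linarith
    -- contradiction with injectivity
    obtain ⟨N, hN⟩ := exists_nat_ge B
    let g : ℕ → ℤ × ℤ := fun n => ((z n).re, (z n).im)
    have hg : Function.Injective g := by
      intro m n hmn
      apply hinj
      have h1 : (z m).re = (z n).re := congrArg Prod.fst hmn
      have h2 : (z m).im = (z n).im := congrArg Prod.snd hmn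
      exact Zsqrtd.ext h1 h2
    have hsub : Set.range g ⊆ ((Finset.Icc (-(N : ℤ)) N ×ˢ Finset.Icc (-(N : ℤ)) N :
        Finset (ℤ × ℤ)) : Set (ℤ × ℤ)) := by
      rintro _ ⟨n, rfl⟩
      obtain ⟨h1, h2⟩ := hbound n
      have h3 : |(z n).re| ≤ (N : ℤ) := by
        have : |((z n).re : ℝ)| ≤ (N : ℝ) := h1.trans hN
        exact_mod_cast this
      have h4 : |(z n).im| ≤ (N : ℤ) := by
        have : |((z n).im : ℝ)| ≤ (N : ℝ) := h2.trans hN
        exact_mod_cast this
      simp only [Finset.coe_product, Finset.coe_Icc, Set.mem_prod, Set.mem_Icc, g]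
      exact ⟨abs_le.1 h3, abs_le.1 h4⟩
    exact (Set.infinite_range_of_injective hg) ((Finset.finite_toSet _).subset hsub)

end Vale.Agent.P015
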