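import Vale.Agent.P015.TubeMain

/-!
# Uniform composite boxes along all straight segments

For every `R` there is `L` such that every straight segment of length `L` (any direction, any
position) passes within distance `1` of the centre of a box of radius `R` free of Gaussian primes.
Consequently walks on Gaussian primes with bounded steps are nowhere straight at large scales.
-/

namespace Vale.Agent.P015

/-- Rows of composite boxes on all integer lines of bounded height, with a period independent of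
the line. Two primes per offset make the norm composite without any size condition. -/
lemma rows (R M₀ : ℕ) : ∃ P : ℕ, 0 < P ∧ ∀ A B κ : ℤ, IsCoprime A B → A ^ 2 + B ^ 2 ≤ M₀ →
    ∃ X₀ Y₀ : ℤ, A * X₀ + B * Y₀ = κ ∧ ∀ t : ℤ, NB R (X₀ + t * P * B) (Y₀ - t * P * A) := by
  classical
  obtain ⟨q, hq, hqp⟩ := exists_primes M₀
  let p : (ℤ × ℤ) × Bool → ℕ := fun i => q (Encodable.encode i)
  have hpprime : ∀ i, (p i).Prime := fun i => (hqp _).1
  have hp4 : ∀ i, p i % 4 = 1 := fun i => (hqp _).2.1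
  have hpM : ∀ i, M₀ < p i := fun i => (hqp _).2.2
  have hpinj : Function.Injective p := fun i j h => Encodable.encode_injective (hq h)
  set F : Finset ((ℤ × ℤ) × Bool) := box R ×ˢ Finset.univ with hF
  set P : ℕ := ∏ i ∈ F, p i with hP
  have hPpos : 0 < P := Finset.prod_pos (fun i _ => (hpprime i).pos)
  refine ⟨P, hPpos, ?_⟩
  intro A B κ hc hM
  obtain ⟨u, v, huv⟩ := hc
  set x₀ : ℤ := u * κ with hx₀
  set y₀ : ℤ := v * κ with hy₀
  have hline : A * x₀ + B * y₀ = κ := by rw [hx₀, hy₀]; linear_combination κ * huv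
  have hQpos : 0 < A ^ 2 + B ^ 2 := by
    have h0 : ¬ (A = 0 ∧ B = 0) := by
      rintro ⟨rfl, rfl⟩
      simp at huv
    by_cases hA : A = 0
    · have hB : B ≠ 0 := fun h => h0 ⟨hA, h⟩
      have : 0 < B ^ 2 := by positivity
      nlinarith [sq_nonneg A]
    · have : 0 < A ^ 2 := by positivity
      nlinarith [sq_nonneg B]
  have hpQ : ∀ i, ¬ ((p i : ℕ) : ℤ) ∣ A ^ 2 + B ^ 2 := by
    intro i hd
    have h1 := Int.le_of_dvd hQpos hd
    have h2 : ((M₀ : ℕ) : ℤ) < (p i : ℕ) := by exact_mod_cast hpM i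
    omega
  have hsolve : ∀ i : (ℤ × ℤ) × Bool, ∃ t : ℤ,
      ((p i : ℕ) : ℤ) ∣ ((x₀ + i.1.1) + t * B) ^ 2 + ((y₀ + i.1.2) - t * A) ^ 2 :=
    fun i => solve_t (hpprime i) (hp4 i) A B _ _ (hpQ i)
  choose τ hτ using hsolve
  have hp0 : ∀ i ∈ F, p i ≠ 0 := fun i _ => (hpprime i).ne_zero
  have hcop : (F : Set ((ℤ × ℤ) × Bool)).Pairwise (Function.onFun Nat.Coprime p) := by
    intro i _ j _ hij
    exact (Nat.coprime_primes (hpprime i) (hpprime j)).2 (fun h => hij (hpinj h))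
  obtain ⟨t₀, ht₀⟩ := crt_exists F p hp0 hcop τ
  refine ⟨x₀ + t₀ * B, y₀ - t₀ * A, by linear_combination hline, ?_⟩
  intro t dx dy hdx hdy
  have hmem := mem_box hdx hdy
  -- divisibility by both primes attached to the offset
  have hdiv : ∀ fl : Bool, ((p ((dx, dy), fl) : ℕ) : ℤ) ∣
      (x₀ + t₀ * B + t * P * B + dx) ^ 2 + (y₀ - t₀ * A - t * P * A + dy) ^ 2 := by
    intro fl
    have hi : ((dx, dy), fl) ∈ F := by
      rw [hF]; exact Finset.mem_product.2 ⟨hmem, Finset.mem_univ _⟩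
    have hdP : ((p ((dx, dy), fl) : ℕ) : ℤ) ∣ (P : ℤ) :=
      Int.natCast_dvd_natCast.2 (Finset.dvd_prod_of_mem p hi)
    have hdt : ((p ((dx, dy), fl) : ℕ) : ℤ) ∣ (t₀ + t * P) - τ ((dx, dy), fl) := by
      have h := dvd_add (ht₀ _ hi) (dvd_mul_of_dvd_right hdP t)
      have e : (t₀ + t * P) - τ ((dx, dy), fl) = t₀ - τ ((dx, dy), fl) + t * P := by ring
      rw [e]; exact h
    have hd := dvd_of_congr (A := A) (B := B) (x := x₀ + dx) (y := y₀ + dy) hdt (hτ ((dx, dy), fl))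
    have e : (x₀ + t₀ * B + t * P * B + dx) ^ 2 + (y₀ - t₀ * A - t * P * A + dy) ^ 2
        = (x₀ + dx + (t₀ + t * P) * B) ^ 2 + (y₀ + dy - (t₀ + t * P) * A) ^ 2 := by ring
    rw [e]; exact hd
  apply not_irreducible_of_dvd_norm (hpprime ((dx, dy), false)) (hp4 ((dx, dy), false))
  · exact hdiv false
  · intro hN
    have h1 := hdiv true
    simp only at hN
    have h2 : ((p ((dx, dy), true) : ℕ) : ℤ) ∣ ((p ((dx, dy), false) : ℕ) : ℤ) := by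
      have : (x₀ + t₀ * B + t * P * B + dx) ^ 2 + (y₀ - t₀ * A - t * P * A + dy) ^ 2
          = ((p ((dx, dy), false) : ℕ) : ℤ) := by
        have e1 : x₀ + t₀ * B + t * P * B + dx = x₀ + t₀ * B + t * P * B + dx := rfl
        linarith
      rw [← this]; exact h1
    have h3 : p ((dx, dy), true) ∣ p ((dx, dy), false) := Int.natCast_dvd_natCast.1 h2
    have h4 := (Nat.prime_dvd_prime_iff_eq (hpprime _) (hpprime _)).1 h3
    have h5 := hpinj h4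
    simp at h5

/-- An arithmetic progression with step at most `L` meets every window of length `L`. -/
lemma ap_hits (s₁ w s₀ : ℝ) (hw : w ≠ 0) :
    ∃ t : ℤ, s₀ ≤ s₁ + t * w ∧ s₁ + t * w ≤ s₀ + |w| := by
  rcases lt_or_gt_of_ne hw with hneg | hpos
  · have hw' : 0 < -w := by linarith
    refine ⟨-⌈(s₀ - s₁) / (-w)⌉, ?_, ?_⟩
    · have h1 := Int.le_ceil ((s₀ - s₁) / (-w))
      have h2 := (div_le_iff₀ hw').1 h1
      push_cast
      nlinarith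
    · have h1 := Int.ceil_lt_add_one ((s₀ - s₁) / (-w))
      have h2 : ((⌈(s₀ - s₁) / (-w)⌉ : ℤ) : ℝ) - 1 < (s₀ - s₁) / (-w) := by linarith
      have h3 := (lt_div_iff₀ hw').1 h2
      rw [abs_of_neg hneg]
      push_cast
      nlinarith
  · refine ⟨⌈(s₀ - s₁) / w⌉, ?_, ?_⟩
    · have h1 := Int.le_ceil ((s₀ - s₁) / w)
      have h2 := (div_le_iff₀ hpos).1 h1
      nlinarith
    · have h1 := Int.ceil_lt_add_one ((s₀ - s₁) / w)
      have h2 : ((⌈(s₀ - s₁) / w⌉ : ℤ) : ℝ) - 1 < (s₀ - s₁) / w := by linarith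
      have h3 := (lt_div_iff₀ hpos).1 h2
      rw [abs_of_pos hpos]
      nlinarith

/-- Dirichlet: a coprime integer vector almost parallel to a unit vector. -/
lemma exists_dir (a b : ℝ) (hab : a ^ 2 + b ^ 2 = 1) (H : ℕ) (hH : 0 < H) :
    ∃ A B : ℤ, IsCoprime A B ∧ |A| ≤ H + 1 ∧ |B| ≤ H + 1 ∧
      |a * B - b * A| ≤ 1 / ((H : ℝ) + 1) := by
  have hHp : (0 : ℝ) < (H : ℝ) + 1 := by positivity
  have hH1 : (1 : ℝ) ≤ H := by exact_mod_cast hH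
  -- a reduction helper
  have key : ∀ (α β ξ : ℝ), α ≠ 0 → |β| ≤ |α| → β = α * ξ → |α| ≤ 1 →
      ∃ C E : ℤ, IsCoprime C E ∧ |C| ≤ H + 1 ∧ |E| ≤ H + 1 ∧
        |α * E - β * C| ≤ 1 / ((H : ℝ) + 1) := by
    intro α β ξ hα hβ hξ hα1
    have hξ1 : |ξ| ≤ 1 := by
      rw [hξ, abs_mul] at hβ
      have hp : 0 < |α| := abs_pos.2 hα
      by_contra hc
      push Not at hc
      nlinarith
    obtain ⟨j, k, hk0, hkH, hd⟩ := Real.exists_int_int_abs_mul_sub_le ξ hH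
    have hgcd : 0 < Int.gcd k j := Int.gcd_pos_of_ne_zero_left _ hk0.ne'
    obtain ⟨k', j', hgc, hk, hj⟩ := Int.exists_gcd_one hgcd
    set g : ℕ := Int.gcd k j with hg'
    have hg : 0 < g := hgcd
    have hgR : (1 : ℝ) ≤ (g : ℝ) := by exact_mod_cast hg
    have hkR : ((k : ℤ) : ℝ) = k' * g := by rw [hk]; push_cast; ring
    have hjR : ((j : ℤ) : ℝ) = j' * g := by rw [hj]; push_cast; ring
    have hk'pos : 0 < k' := by
      have h0 : 0 < k' * (g : ℤ) := by rw [← hk]; exact hk0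
      by_contra hc
      push Not at hc
      have h1 := mul_nonpos_of_nonpos_of_nonneg hc (Int.natCast_nonneg g)
      omega
    have hk'le : k' ≤ H := by
      have h1 : k' * 1 ≤ k' * (g : ℤ) := mul_le_mul_of_nonneg_left (by omega) hk'pos.le
      have h2 : k' * (g : ℤ) ≤ H := by rw [← hk]; exact hkH
      omega
    have hj'R : |(j' : ℝ) - k' * ξ| ≤ 1 / ((H : ℝ) + 1) := by
      have h1 : |((k : ℤ) : ℝ) * ξ - j| = g * |(j' : ℝ) - k' * ξ| := by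
        rw [hkR, hjR]
        have : ((k' : ℝ) * g) * ξ - j' * g = -(g * ((j' : ℝ) - k' * ξ)) := by ring
        rw [this, abs_neg, abs_mul, abs_of_pos (by linarith : (0 : ℝ) < g)]
      rw [h1] at hd
      have h2 : 0 ≤ |(j' : ℝ) - k' * ξ| := abs_nonneg _
      nlinarith
    refine ⟨k', j', ?_, ?_, ?_, ?_⟩
    · rw [Int.isCoprime_iff_gcd_eq_one]; exact hgc
    · rw [abs_of_pos hk'pos]; omega
    · -- the second coordinate
      have h1 : |(j' : ℝ)| ≤ (H : ℝ) + 1 := by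
        have e : (j' : ℝ) = ((j' : ℝ) - k' * ξ) + k' * ξ := by ring
        rw [e]
        refine (abs_add_le _ _).trans ?_
        have h2 : 1 / ((H : ℝ) + 1) ≤ 1 := by
          rw [div_le_one hHp]; linarith
        have h3 : |(k' : ℝ) * ξ| ≤ H := by
          rw [abs_mul]
          have h4 : |(k' : ℝ)| ≤ H := by
            rw [abs_of_pos (by exact_mod_cast hk'pos)]
            exact_mod_cast hk'le
          have h5 := abs_nonneg (k' : ℝ)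
          have h6 := abs_nonneg ξ
          nlinarith
        linarith
      have : |(j' : ℝ)| ≤ ((H + 1 : ℕ) : ℝ) := by push_cast; exact h1
      have h2 : |j'| ≤ ((H + 1 : ℕ) : ℤ) := by exact_mod_cast this
      push_cast at h2
      exact h2
    · have e : α * (j' : ℝ) - β * k' = α * ((j' : ℝ) - k' * ξ) := by rw [hξ]; ring
      rw [e, abs_mul]
      have h2 := abs_nonneg ((j' : ℝ) - k' * ξ)
      nlinarith
  have hane : a ≠ 0 ∨ b ≠ 0 := by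
    by_contra hc
    push Not at hc
    rw [hc.1, hc.2] at hab
    norm_num at hab
  have ha1 : |a| ≤ 1 := by
    rw [abs_le]; constructor <;> nlinarith [sq_nonneg b]
  have hb1 : |b| ≤ 1 := by
    rw [abs_le]; constructor <;> nlinarith [sq_nonneg a]
  by_cases hle : |b| ≤ |a|
  · have ha0 : a ≠ 0 := by
      intro h
      rw [h, abs_zero] at hle
      have : b = 0 := abs_eq_zero.1 (le_antisymm hle (abs_nonneg _))
      rcases hane with h1 | h1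
      · exact h1 h
      · exact h1 this
    obtain ⟨C, E, h1, h2, h3, h4⟩ := key a b (b / a) ha0 hle (by field_simp) ha1
    exact ⟨C, E, h1, h2, h3, h4⟩
  · push Not at hle
    have hb0 : b ≠ 0 := by
      intro h
      rw [h, abs_zero] at hle
      exact absurd (abs_nonneg a) (not_le.2 hle)
    obtain ⟨C, E, h1, h2, h3, h4⟩ := key b a (a / b) hb0 hle.le (by field_simp) hb1
    refine ⟨E, C, h1.symm, h3, h2, ?_⟩
    have e : a * (C : ℝ) - b * E = -(b * E - a * C) := by ring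
    rw [e, abs_neg]
    exact h4


/-- Exact identity behind the tube bound. -/
lemma row_bound {a b c s₀ A B X Y κ s Δ : ℝ} (hab : a ^ 2 + b ^ 2 = 1) (hκ : A * X + B * Y = κ)
    (hs : -b * X + a * Y = s)
    (h1 : |κ - ((a * A + b * B) * c + (a * B - b * A) * s₀)| ≤ Δ) :
    |a * A + b * B| * |a * X + b * Y - c| ≤ Δ + |a * B - b * A| * |s - s₀| := by
  have e : (a * A + b * B) * (a * X + b * Y - c)
      = (κ - ((a * A + b * B) * c + (a * B - b * A) * s₀)) - (a * B - b * A) * (s - s₀) := by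
    rw [← hκ, ← hs]
    linear_combination (A * X + B * Y) * hab
  rw [← abs_mul, e]
  refine (abs_sub _ _).trans ?_
  rw [abs_mul (a * B - b * A)]
  linarith

/-- Case of large height: a coset of the big lattice meets the tube. -/
lemma case_large (a b c s₀ : ℝ) (hab : a ^ 2 + b ^ 2 = 1) (A B u v : ℤ) (huv : u * A + v * B = 1)
    (P₁ : ℕ) (hP₁ : (1 : ℝ) ≤ P₁) (X₁ Y₁ : ℤ) (Hr : ℝ)
    (hF : |a * B - b * A| * Hr ≤ 1) (h8 : (P₁ : ℝ) * 8 ≤ Hr)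
    (hcase : 2 * (P₁ : ℝ) ≤ |a * A + b * B|) (hGle : |a * A + b * B| ≤ 2 * Hr) :
    ∃ K₁ K₂ : ℤ, |a * ((X₁ + P₁ * K₁ : ℤ) : ℝ) + b * ((Y₁ + P₁ * K₂ : ℤ) : ℝ) - c| ≤ 1 ∧
      s₀ ≤ -b * ((X₁ + P₁ * K₁ : ℤ) : ℝ) + a * ((Y₁ + P₁ * K₂ : ℤ) : ℝ) ∧
      -b * ((X₁ + P₁ * K₁ : ℤ) : ℝ) + a * ((Y₁ + P₁ * K₂ : ℤ) : ℝ) ≤ s₀ + 2 * P₁ * Hr := by
  set G : ℝ := a * A + b * B with hG
  set F : ℝ := a * B - b * A with hFd
  have hP₁pos : (0 : ℝ) < P₁ := by linarith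
  have hGpos : 0 < |G| := by linarith
  have hGne : G ≠ 0 := abs_pos.1 hGpos
  set Ψ₀ : ℤ := A * X₁ + B * Y₁ with hΨ₀
  set τ : ℝ := G * c + F * s₀ with hτ
  set j : ℤ := ⌊(τ - Ψ₀) / P₁⌋ with hj
  have hj1 : (P₁ : ℝ) * j ≤ τ - Ψ₀ := by
    have := Int.floor_le ((τ - Ψ₀) / P₁)
    have h2 := (le_div_iff₀ hP₁pos).1 this
    rw [← hj] at h2
    linarith
  have hj2 : τ - Ψ₀ < (P₁ : ℝ) * j + P₁ := by
    have := Int.lt_floor_add_one ((τ - Ψ₀) / P₁)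
    have h2 := (div_lt_iff₀ hP₁pos).1 this
    rw [← hj] at h2
    linarith
  set m₀ : ℤ := u * j with hm₀
  set n₀ : ℤ := v * j with hn₀
  have hAB : A * m₀ + B * n₀ = j := by rw [hm₀, hn₀]; linear_combination j * huv
  set s₁ : ℝ := -b * ((X₁ + P₁ * m₀ : ℤ) : ℝ) + a * ((Y₁ + P₁ * n₀ : ℤ) : ℝ) with hs₁
  have hw : -((P₁ : ℝ) * G) ≠ 0 := neg_ne_zero.2 (mul_ne_zero hP₁pos.ne' hGne)
  obtain ⟨t, ht1, ht2⟩ := ap_hits s₁ (-((P₁ : ℝ) * G)) s₀ hw
  have hs : -b * ((X₁ + P₁ * (m₀ + t * B) : ℤ) : ℝ) + a * ((Y₁ + P₁ * (n₀ - t * A) : ℤ) : ℝ)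
      = s₁ + t * (-((P₁ : ℝ) * G)) := by
    rw [hs₁, hG]; push_cast; ring
  have hψX : (A : ℝ) * ((X₁ + P₁ * (m₀ + t * B) : ℤ) : ℝ) + B * ((Y₁ + P₁ * (n₀ - t * A) : ℤ) : ℝ)
      = (Ψ₀ : ℝ) + P₁ * j := by
    have : A * (X₁ + P₁ * (m₀ + t * B)) + B * (Y₁ + P₁ * (n₀ - t * A)) = Ψ₀ + P₁ * j := by
      rw [hΨ₀]; linear_combination (P₁ : ℤ) * hAB
    exact_mod_cast this
  have habsw : |-((P₁ : ℝ) * G)| = P₁ * |G| := by
    rw [abs_neg, abs_mul, abs_of_pos hP₁pos]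
  refine ⟨m₀ + t * B, n₀ - t * A, ?_, ?_, ?_⟩
  · have hΔ : |(Ψ₀ : ℝ) + P₁ * j - τ| ≤ P₁ := by
      rw [abs_le]; constructor <;> linarith
    have h4 := row_bound (c := c) (s₀ := s₀) hab hψX hs hΔ
    have h3 : |s₁ + t * (-((P₁ : ℝ) * G)) - s₀| ≤ P₁ * |G| := by
      rw [abs_le, ← habsw]
      constructor <;> linarith
    have hFnn : 0 ≤ |F| := abs_nonneg _
    have h5 : |F| * P₁ ≤ 1 / 8 := by nlinarith
    have h6 : |F| * |s₁ + t * (-((P₁ : ℝ) * G)) - s₀| ≤ |G| / 8 := by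
      have h7 := mul_le_mul_of_nonneg_left h3 hFnn
      nlinarith
    by_contra hcon
    push Not at hcon
    nlinarith
  · rw [hs]; exact ht1
  · rw [hs]
    have h1 : (P₁ : ℝ) * |G| ≤ P₁ * (2 * Hr) := mul_le_mul_of_nonneg_left hGle hP₁pos.le
    rw [habsw] at ht2
    linarith

/-- Case of small height: an exact lattice row stays in the tube. -/
lemma case_small (a b c s₀ : ℝ) (hab : a ^ 2 + b ^ 2 = 1) (A B : ℤ) (P₁ P₂ : ℕ) (hP₂ : (1 : ℝ) ≤ P₂)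
    (X₀ Y₀ : ℤ) (hline : A * X₀ + B * Y₀ = round ((a * A + b * B) * c + (a * B - b * A) * s₀))
    (Hr : ℝ) (hF : |a * B - b * A| * Hr ≤ 1) (h8 : 8 * (2 * (P₁ : ℝ) * P₂) ≤ Hr)
    (hcase : |a * A + b * B| < 2 * (P₁ : ℝ)) (hG34 : 3 / 4 ≤ |a * A + b * B|) :
    ∃ t : ℤ, |a * ((X₀ + t * P₂ * B : ℤ) : ℝ) + b * ((Y₀ - t * P₂ * A : ℤ) : ℝ) - c| ≤ 1 ∧
      s₀ ≤ -b * ((X₀ + t * P₂ * B : ℤ) : ℝ) + a * ((Y₀ - t * P₂ * A : ℤ) : ℝ) ∧
      -b * ((X₀ + t * P₂ * B : ℤ) : ℝ) + a * ((Y₀ - t * P₂ * A : ℤ) : ℝ)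
        ≤ s₀ + 2 * P₁ * P₂ := by
  set G : ℝ := a * A + b * B with hG
  set F : ℝ := a * B - b * A with hFd
  have hGpos : 0 < |G| := by linarith
  have hGne : G ≠ 0 := abs_pos.1 hGpos
  have hP₂pos : (0 : ℝ) < P₂ := by linarith
  set τ : ℝ := G * c + F * s₀ with hτ
  set s₁ : ℝ := -b * (X₀ : ℝ) + a * (Y₀ : ℝ) with hs₁
  have hw : -((P₂ : ℝ) * G) ≠ 0 := neg_ne_zero.2 (mul_ne_zero hP₂pos.ne' hGne)
  obtain ⟨t, ht1, ht2⟩ := ap_hits s₁ (-((P₂ : ℝ) * G)) s₀ hw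
  have hs : -b * ((X₀ + t * P₂ * B : ℤ) : ℝ) + a * ((Y₀ - t * P₂ * A : ℤ) : ℝ)
      = s₁ + t * (-((P₂ : ℝ) * G)) := by
    rw [hs₁, hG]; push_cast; ring
  have hψX : (A : ℝ) * ((X₀ + t * P₂ * B : ℤ) : ℝ) + B * ((Y₀ - t * P₂ * A : ℤ) : ℝ)
      = ((round τ : ℤ) : ℝ) := by
    have : A * (X₀ + t * P₂ * B) + B * (Y₀ - t * P₂ * A) = round τ := by
      linear_combination hline
    exact_mod_cast this
  have habsw : |-((P₂ : ℝ) * G)| = P₂ * |G| := by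
    rw [abs_neg, abs_mul, abs_of_pos hP₂pos]
  have hP₂G : (P₂ : ℝ) * |G| ≤ 2 * P₁ * P₂ := by nlinarith
  refine ⟨t, ?_, ?_, ?_⟩
  · have hΔ : |((round τ : ℤ) : ℝ) - τ| ≤ 1 / 2 := by
      rw [abs_sub_comm]; exact abs_sub_round τ
    have h4 := row_bound (c := c) (s₀ := s₀) hab hψX hs hΔ
    have h3 : |s₁ + t * (-((P₂ : ℝ) * G)) - s₀| ≤ P₂ * |G| := by
      rw [abs_le, ← habsw]
      constructor <;> linarith
    have hFnn : 0 ≤ |F| := abs_nonneg _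
    have h6 : |F| * |s₁ + t * (-((P₂ : ℝ) * G)) - s₀| ≤ 1 / 4 := by
      have h7 : |s₁ + t * (-((P₂ : ℝ) * G)) - s₀| * 8 ≤ Hr := by linarith
      have h9 := abs_nonneg (s₁ + t * (-((P₂ : ℝ) * G)) - s₀)
      nlinarith
    by_contra hcon
    push Not at hcon
    nlinarith
  · rw [hs]; exact ht1
  · rw [hs]
    rw [habsw] at ht2
    linarith

lemma hM_aux {G F A B P : ℝ} (hGF : G ^ 2 + F ^ 2 = A ^ 2 + B ^ 2) (hF : F ^ 2 ≤ 1)
    (hcase : |G| < 2 * P) : A ^ 2 + B ^ 2 ≤ 4 * P ^ 2 + 1 := by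
  have h1 : G ^ 2 = |G| ^ 2 := (sq_abs G).symm
  have h3 := abs_nonneg G
  have h4 : |G| ^ 2 ≤ (2 * P) ^ 2 := pow_le_pow_left₀ h3 hcase.le 2
  rw [← hGF, h1]
  nlinarith

lemma dir_facts {a b : ℝ} {A B H : ℝ} (hab : a ^ 2 + b ^ 2 = 1) (hK1 : 1 ≤ A ^ 2 + B ^ 2)
    (hA : |A| ≤ H) (hB : |B| ≤ H) (hH : 8 ≤ H) (hF : |a * B - b * A| ≤ 1 / H) :
    (a * B - b * A) ^ 2 ≤ 1 / 64 ∧ 3 / 4 ≤ |a * A + b * B| ∧ |a * A + b * B| ≤ 2 * H ∧
      |a * B - b * A| * H ≤ 1 := by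
  have hHpos : 0 < H := by linarith
  have hFH : |a * B - b * A| * H ≤ 1 := (le_div_iff₀ hHpos).1 hF
  have hFs : |a * B - b * A| ≤ 1 / 8 := by
    by_contra hc
    push Not at hc
    nlinarith
  have hFsq : (a * B - b * A) ^ 2 ≤ 1 / 64 := by
    have h1 : (a * B - b * A) ^ 2 = |a * B - b * A| ^ 2 := (sq_abs _).symm
    have h2 := abs_nonneg (a * B - b * A)
    rw [h1]
    nlinarith
  have hGF : (a * A + b * B) ^ 2 + (a * B - b * A) ^ 2 = A ^ 2 + B ^ 2 := by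
    linear_combination (A ^ 2 + B ^ 2) * hab
  have hGsq : 63 / 64 ≤ (a * A + b * B) ^ 2 := by linarith
  have hG34 : 3 / 4 ≤ |a * A + b * B| := by
    by_contra hcon
    push Not at hcon
    have h1 : (a * A + b * B) ^ 2 = |a * A + b * B| ^ 2 := (sq_abs _).symm
    have h2 := abs_nonneg (a * A + b * B)
    rw [h1] at hGsq
    nlinarith
  have ha1 : |a| ≤ 1 := by
    rw [abs_le]; constructor <;> nlinarith [sq_nonneg b]
  have hb1 : |b| ≤ 1 := by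
    rw [abs_le]; constructor <;> nlinarith [sq_nonneg a]
  have hGle : |a * A + b * B| ≤ 2 * H := by
    refine (abs_add_le _ _).trans ?_
    rw [abs_mul, abs_mul]
    have h1 := abs_nonneg A
    have h2 := abs_nonneg B
    nlinarith
  exact ⟨hFsq, hG34, hGle, hFH⟩

/-- **Uniform blocks.** For every `R` there is `L` such that every straight segment of length `L`,
in any direction and at any position, passes within distance `1` of the centre of a box of radius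
`R` containing no Gaussian prime. -/
theorem uniform_blocks (R : ℕ) : ∃ L : ℝ, 0 < L ∧ ∀ a b c s₀ : ℝ, a ^ 2 + b ^ 2 = 1 →
    ∃ X Y : ℤ, |a * X + b * Y - c| ≤ 1 ∧ s₀ ≤ -b * X + a * Y ∧ -b * X + a * Y ≤ s₀ + L ∧
      NB R X Y := by
  obtain ⟨P₁, X₁, Y₁, hP₁, hNB₁⟩ := block_coset R
  obtain ⟨P₂, hP₂, hrows⟩ := rows R (4 * P₁ ^ 2 + 1)
  obtain ⟨H, hHdef⟩ : ∃ H : ℕ, H = 16 * (P₁ * P₂) := ⟨_, rfl⟩
  have hH : 0 < H := by rw [hHdef]; positivity
  have hP₁R : (1 : ℝ) ≤ P₁ := by exact_mod_cast hP₁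
  have hP₂R : (1 : ℝ) ≤ P₂ := by exact_mod_cast hP₂
  have hHR : (H : ℝ) = 16 * ((P₁ : ℝ) * P₂) := by rw [hHdef]; push_cast; ring
  have hPP : (P₁ : ℝ) ≤ (P₁ : ℝ) * P₂ := le_mul_of_one_le_right (by linarith) hP₂R
  have hPP' : (P₂ : ℝ) ≤ (P₁ : ℝ) * P₂ := le_mul_of_one_le_left (by linarith) hP₁R
  have hHr8 : (8 : ℝ) ≤ (H : ℝ) + 1 := by rw [hHR]; linarith
  have hP₁₂ : 0 ≤ 2 * (P₁ : ℝ) := by linarith
  refine ⟨2 * P₁ * ((H : ℝ) + 1), by linarith [mul_pos (by linarith : (0 : ℝ) < 2 * P₁) (by linarith : (0 : ℝ) < (H : ℝ) + 1)], ?_⟩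
  intro a b c s₀ hab
  obtain ⟨A, B, hc, hA, hB, hF⟩ := exists_dir a b hab H hH
  obtain ⟨u, v, huv⟩ := hc
  have hK1 : (1 : ℝ) ≤ (A : ℝ) ^ 2 + (B : ℝ) ^ 2 := by
    have h0 : ¬ (A = 0 ∧ B = 0) := by
      rintro ⟨rfl, rfl⟩
      simp at huv
    have h1 : (1 : ℤ) ≤ A ^ 2 + B ^ 2 := by
      by_cases hA0 : A = 0
      · have hB0 : B ≠ 0 := fun h => h0 ⟨hA0, h⟩
        have : 0 < B ^ 2 := by positivity
        nlinarith [sq_nonneg A]
      · have : 0 < A ^ 2 := by positivity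
        nlinarith [sq_nonneg B]
    exact_mod_cast h1
  have hAR : |(A : ℝ)| ≤ (H : ℝ) + 1 := by
    have : ((|A| : ℤ) : ℝ) ≤ (((H : ℤ) + 1 : ℤ) : ℝ) := by exact_mod_cast hA
    simpa using this
  have hBR : |(B : ℝ)| ≤ (H : ℝ) + 1 := by
    have : ((|B| : ℤ) : ℝ) ≤ (((H : ℤ) + 1 : ℤ) : ℝ) := by exact_mod_cast hB
    simpa using this
  obtain ⟨hFsq, hG34, hGle, hFH⟩ := dir_facts hab hK1 hAR hBR hHr8 hF
  by_cases hcase : 2 * (P₁ : ℝ) ≤ |a * A + b * B|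
  · obtain ⟨K₁, K₂, h1, h2, h3⟩ := case_large a b c s₀ hab A B u v huv P₁ hP₁R X₁ Y₁ ((H : ℝ) + 1)
      hFH (by rw [hHR]; linarith) hcase hGle
    exact ⟨_, _, h1, h2, h3, fun dx dy h4 h5 => hNB₁ K₁ K₂ dx dy h4 h5⟩
  · push Not at hcase
    have hM : A ^ 2 + B ^ 2 ≤ ((4 * P₁ ^ 2 + 1 : ℕ) : ℤ) := by
      have hGF : (a * A + b * B) ^ 2 + (a * B - b * A) ^ 2 = (A : ℝ) ^ 2 + (B : ℝ) ^ 2 := by
        linear_combination ((A : ℝ) ^ 2 + (B : ℝ) ^ 2) * hab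
      have h2 := hM_aux hGF (by linarith) hcase
      have h3 : (((A ^ 2 + B ^ 2 : ℤ)) : ℝ) ≤ (((4 * P₁ ^ 2 + 1 : ℕ) : ℤ) : ℝ) := by
        push_cast; exact h2
      exact_mod_cast h3
    obtain ⟨X₀, Y₀, hline, hNB⟩ := hrows A B (round ((a * A + b * B) * c + (a * B - b * A) * s₀))
      ⟨u, v, huv⟩ hM
    obtain ⟨t, h1, h2, h3⟩ := case_small a b c s₀ hab A B P₁ P₂ hP₂R X₀ Y₀ hline ((H : ℝ) + 1) hFH
      (by rw [hHR]; linarith) hcase hG34
    refine ⟨_, _, h1, h2, ?_, hNB t⟩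
    refine h3.trans ?_
    have h5 : (P₂ : ℝ) ≤ (H : ℝ) + 1 := by rw [hHR]; linarith
    have h4 : 2 * (P₁ : ℝ) * P₂ ≤ 2 * P₁ * ((H : ℝ) + 1) := mul_le_mul_of_nonneg_left h5 hP₁₂
    linarith

end Vale.Agent.P015
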